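import Vale.Agent.P078.Local.Stable.Cone

/-!
# Congruence, quadratic form bounds, gluing and Rayleigh inequalities for valid points
-/

namespace Vale.Agent.P078.Local

open scoped ComplexConjugate
open Matrix

variable {ι : Type*} [DecidableEq ι] {r : ℕ}
variable {T U : Finset ι} {h : ι → Fin r → ℝ} {Z Z' : ι → ℝ} {x : ι → ι → ℂ} {l u : ι}

/-- `χ x χ`. -/
def conjBy (χ : ι → ℝ) (x : ι → ι → ℂ) : ι → ι → ℂ :=
  fun a b => (χ a : ℂ) * x a b * (χ b : ℂ)

omit [DecidableEq ι] in
theorem IsHerm.conjBy (hx : IsHerm x) (χ : ι → ℝ) : IsHerm (conjBy χ x) := fun a b => by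
  simp only [Local.conjBy, map_mul, Complex.conj_ofReal, hx a b]
  ring

theorem q_conjBy (χ : ι → ℝ) (z : ι → ℂ) :
    q T h (fun a => (χ a : ℂ) ^ 2 * z a) (conjBy χ x)
      = (∏ a : T, (χ a : ℂ) ^ 2) * q T h z x := by
  simp only [q, Finset.mul_sum]
  refine Finset.sum_congr rfl fun c _ => ?_
  have : colMatrix T c (fun a => (χ a : ℂ) ^ 2 * z a) (conjBy χ x)
      = diagonal (fun a : T => (χ a : ℂ)) * colMatrix T c z x
          * diagonal (fun a : T => (χ a : ℂ)) := by
    ext a b
    simp only [colMatrix, conjBy, diagonal_mul, mul_diagonal]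
    rcases eq_or_ne a b with rfl | hne
    · simp; ring
    · by_cases hc : c a = c b <;> simp [hne, hc]
  rw [this, det_mul, det_mul, det_diagonal]
  simp only [pow_two, Finset.prod_mul_distrib]
  ring

theorem m_eq_zero_of_row (hl : l ∈ T) (hrow : ∀ b ∈ T, x l b = 0) (c : Fin r) :
    m T l h c Z x = 0 := by
  have : q T (pure h l c) (ofR (Function.update Z l 0)) x = 0 := by
    refine Finset.sum_eq_zero fun d _ => ?_
    have hdet : (colMatrix T d (ofR (Function.update Z l 0)) x).det = 0 :=
      det_eq_zero_of_row_eq_zero ⟨l, hl⟩ fun b => by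
        rcases eq_or_ne (⟨l, hl⟩ : T) b with rfl | hne
        · simp [colMatrix, ofR, hrow l hl]
        · simp [colMatrix, hne, hrow b b.2]
    rw [hdet, mul_zero]
  simp [m, qR, this]

/-- A valid point on `U`, scaled by `χ` supported in `U` and padded, is valid on `T` up to any
`ε > 0`. -/
theorem valid_conjBy (hh : IsLaw T h) {χ : ι → ℝ} (hv : Valid U h Z x)
    (hsupp : ∀ a ∈ T, χ a ≠ 0 → a ∈ U) (hhU : IsLaw U h) {ε : ℝ} (hε : 0 < ε) :
    Valid T h (fun a => χ a ^ 2 * Z a + ε) (conjBy χ x) := by
  induction hn : T.card using Nat.strong_induction_on generalizing T with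
  | _ n IH =>
    by_cases hzero : ∃ l ∈ T, χ l = 0
    · obtain ⟨l, hl, hχ⟩ := hzero
      refine (valid_iff_erase hl hh).2 ⟨IH _ (hn ▸ Finset.card_erase_lt_of_mem hl)
        (hh.mono (Finset.erase_subset _ _))
        (fun a ha => hsupp a (Finset.mem_of_mem_erase ha)) rfl, ?_⟩
      rw [Finset.sum_eq_zero fun c _ => by
        rw [m_eq_zero_of_row hl (fun b _ => by simp [conjBy, hχ]) c, mul_zero]]
      simp [hχ, hε]
    · simp only [not_exists, not_and] at hzero
      have hTU : T ⊆ U := fun a ha => hsupp a ha (hzero a ha)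
      refine valid_iff.2 ⟨hv.herm.conjBy χ, fun t ht => ?_⟩
      have hne : ∀ a ∈ T, (χ a : ℂ) ≠ 0 := fun a ha => by exact_mod_cast hzero a ha
      have hval : Valid T h (fun a => Z a + (ε + t) / χ a ^ 2) x :=
        (hv.subset hhU hTU).mono hh fun a _ => le_add_of_nonneg_right (by positivity)
      have heq : q T h (ofR fun a => χ a ^ 2 * Z a + ε + t) (conjBy χ x)
          = q T h (fun a => (χ a : ℂ) ^ 2 * ofR (fun a => Z a + (ε + t) / χ a ^ 2) a)
              (conjBy χ x) := by
        refine q_congr (fun _ _ => rfl) (fun a ha => ?_) (fun _ _ _ _ => rfl)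
        have := hne a ha
        simp only [ofR]
        push_cast
        field_simp
        ring
      rw [heq, q_conjBy]
      refine mul_ne_zero (Finset.prod_ne_zero_iff.2 fun a _ => pow_ne_zero _ (hne a a.2)) ?_
      have := hval.pos hh
      rw [q_ofR hval.herm]
      exact_mod_cast this.ne'

/-- A strict bound on the quadratic form of `x` gives validity for every law. -/
theorem valid_of_quad (hh : IsLaw T h) (hx : IsHerm x)
    (hb : ∀ v : T → ℂ, v ≠ 0 → (∑ a : T, ∑ b : T, conj (v a) * x a b * v b).re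
      < ∑ a : T, Z a * Complex.normSq (v a)) : Valid T h Z x := by
  suffices key : ∀ M : Finset ι, ∀ g : ι → Fin r → ℝ, IsLaw T g →
      (∀ u ∈ T, u ∉ M → ∃ c, g u = Pi.single c 1) → Valid T g Z x from
    key T h hh (fun u hu hu' => absurd hu hu')
  intro M
  induction M using Finset.induction_on with
  | empty =>
    intro g _ hdet
    have hex : ∀ a : T, ∃ c, g a = Pi.single c 1 := fun a => hdet a a.2 (Finset.notMem_empty _)
    choose c hc using hex
    refine valid_iff.2 ⟨hx, fun t ht => ?_⟩
    rw [q, Finset.sum_eq_single c]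
    · have h1 : (∏ a : T, (g a (c a) : ℂ)) = 1 := Finset.prod_eq_one fun a _ => by simp [hc a]
      rw [h1, one_mul]
      intro hdet0
      obtain ⟨v, hv, hzero⟩ := exists_mulVec_eq_zero_iff.2 hdet0
      set w : Fin r → T → ℂ := fun d a => if c a = d then v a else 0
      have hrow : ∀ a : T, ((Z a + t : ℝ) : ℂ) * v a
          = ∑ b : T, (if c a = c b then x a b else 0) * v b := by
        intro a
        have := congrFun hzero a
        simp only [mulVec, dotProduct, colMatrix, sub_mul, Finset.sum_sub_distrib, ite_mul,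
          zero_mul, Finset.sum_ite_eq, Finset.mem_univ, if_true, Pi.zero_apply, sub_eq_zero,
          ofR] at this
        rw [this]
        exact Finset.sum_congr rfl fun b _ => by by_cases hab : c a = c b <;> simp [hab]
      have hsplit : ∑ d, ∑ a : T, ∑ b : T, conj (w d a) * x a b * w d b
          = ∑ a : T, ((Z a + t : ℝ) : ℂ) * (Complex.normSq (v a) : ℂ) := by
        rw [Finset.sum_comm]
        refine Finset.sum_congr rfl fun a _ => ?_
        rw [Finset.sum_eq_single (c a) (fun d _ hd => by simp [w, Ne.symm hd]) (by simp),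
          Complex.normSq_eq_conj_mul_self]
        rw [show ((Z a + t : ℝ) : ℂ) * (conj (v a) * v a)
          = conj (v a) * (((Z a + t : ℝ) : ℂ) * v a) by ring, hrow a, Finset.mul_sum]
        refine Finset.sum_congr rfl fun b _ => ?_
        by_cases hab : c a = c b
        · simp [w, hab]; ring
        · simp [w, hab, Ne.symm hab]
      have hle : ∀ d, (∑ a : T, ∑ b : T, conj (w d a) * x a b * w d b).re
          ≤ ∑ a : T, Z a * Complex.normSq (w d a) := by
        intro d
        rcases eq_or_ne (w d) 0 with h0 | h0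
        · simp [h0]
        · exact (hb _ h0).le
      obtain ⟨a₀, ha₀⟩ := Function.ne_iff.1 hv
      have hlt : (∑ a : T, ∑ b : T, conj (w (c a₀) a) * x a b * w (c a₀) b).re
          < ∑ a : T, Z a * Complex.normSq (w (c a₀) a) :=
        hb _ fun h0 => ha₀ (by simpa [w] using congrFun h0 a₀)
      have hsum := Finset.sum_lt_sum (fun d (_ : d ∈ Finset.univ) => hle d)
        ⟨c a₀, Finset.mem_univ _, hlt⟩
      rw [← Complex.re_sum, hsplit, Finset.sum_comm, Complex.re_sum] at hsum
      have hrhs : ∀ a : T, ∑ d, Z a * Complex.normSq (w d a) = Z a * Complex.normSq (v a) := by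
        intro a
        rw [Finset.sum_eq_single (c a) (fun d _ hd => by simp [w, Ne.symm hd]) (by simp)]
        simp [w]
      simp only [hrhs, ← Complex.ofReal_mul, Complex.ofReal_re] at hsum
      have : ∀ a : T, Z a * Complex.normSq (v a) ≤ (Z a + t) * Complex.normSq (v a) := fun a =>
        mul_le_mul_of_nonneg_right (by linarith) (Complex.normSq_nonneg _)
      linarith [Finset.sum_le_sum fun a (_ : a ∈ Finset.univ) => this a]
    · intro d _ hd
      obtain ⟨a, ha⟩ := Function.ne_iff.1 hd
      rw [Finset.prod_eq_zero (Finset.mem_univ a) (by simp [hc a, Pi.single_eq_of_ne ha]),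
        zero_mul]
    · simp
  | @insert l M hlM IH =>
    intro g hg hdet
    by_cases hlT : l ∈ T
    · refine valid_of_pure hlT hg fun c => IH _ (hg.pure l c) fun u hu huM => ?_
      rcases eq_or_ne u l with rfl | hne
      · exact ⟨c, by simp [Local.pure]⟩
      · obtain ⟨d, hd⟩ := hdet u hu (by simp [hne, huM])
        exact ⟨d, by simp [Local.pure, Function.update_of_ne hne, hd]⟩
    · exact IH g hg fun u hu huM => hdet u hu (by
        simp only [Finset.mem_insert, not_or]
        exact ⟨fun he => hlT (he ▸ hu), huM⟩)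

/-- Raising `x` by a perturbation with quadratic form at most `e` costs `e`. -/
theorem Valid.perturb (hh : IsLaw T h) (hv : Valid T h Z x) {E : ι → ι → ℂ} (hE : IsHerm E)
    {e : ℝ} (hb : ∀ v : T → ℂ, (∑ a : T, ∑ b : T, conj (v a) * E a b * v b).re
      ≤ e * ∑ a : T, Complex.normSq (v a)) {σ : ℝ} (hσ : 0 < σ) :
    Valid T h (fun a => Z a + (e + σ)) (x + E) := by
  refine hv.add hh (valid_of_quad (Z := fun _ => e + σ) hh hE fun v hv0 => ?_)
  obtain ⟨a, ha⟩ := Function.ne_iff.1 hv0
  have hpos : 0 < ∑ a : T, Complex.normSq (v a) :=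
    Finset.sum_pos' (fun b _ => Complex.normSq_nonneg _)
      ⟨a, Finset.mem_univ a, Complex.normSq_pos.2 (by simpa using ha)⟩
  rw [← Finset.mul_sum, add_mul]
  linarith [hb v, mul_pos hσ hpos]

/-- Gluing two valid points. -/
theorem valid_glue {U₁ U₂ : Finset ι} {Z₁ Z₂ : ι → ℝ} {χ₁ χ₂ : ι → ℝ} (hh : IsLaw T h)
    (hh₁ : IsLaw U₁ h) (hh₂ : IsLaw U₂ h) (hv₁ : Valid U₁ h Z₁ x) (hv₂ : Valid U₂ h Z₂ x)
    (hs₁ : ∀ a ∈ T, χ₁ a ≠ 0 → a ∈ U₁) (hs₂ : ∀ a ∈ T, χ₂ a ≠ 0 → a ∈ U₂) {e : ℝ}
    (hb : ∀ v : T → ℂ, (∑ a : T, ∑ b : T, conj (v a)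
        * (x a b - conjBy χ₁ x a b - conjBy χ₂ x a b) * v b).re
      ≤ e * ∑ a : T, Complex.normSq (v a)) {σ : ℝ} (hσ : 0 < σ) :
    Valid T h (fun a => χ₁ a ^ 2 * Z₁ a + χ₂ a ^ 2 * Z₂ a + (e + σ)) x := by
  have h3 : (0 : ℝ) < σ / 3 := by linarith
  have h1 := valid_conjBy hh hv₁ hs₁ hh₁ h3
  have h2 := valid_conjBy hh hv₂ hs₂ hh₂ h3
  have hE : IsHerm (x - conjBy χ₁ x - conjBy χ₂ x) := fun a b => by
    simp [hv₁.herm a b, hv₁.herm.conjBy χ₁ a b, hv₁.herm.conjBy χ₂ a b]
  have := (h1.add hh h2).perturb hh hE (e := e) hb h3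
  convert this using 1
  · funext a; simp only [Pi.add_apply]; ring
  · abel

/-- The sign in Rayleigh's inequality, from stability in the two variables. -/
theorem im_mul_conj_nonneg {a b c d : ℂ} (hcd : c + Complex.I * d ≠ 0)
    (hne : ∀ t : ℂ, 0 < t.im → a + b * Complex.I + t * (c + Complex.I * d) ≠ 0) :
    0 ≤ ((a + b * Complex.I) * conj (c + Complex.I * d)).im := by
  set t := -((a + b * Complex.I) / (c + Complex.I * d))
  have ht : t.im ≤ 0 := not_lt.1 fun hpos => hne t hpos (by
    simp only [t, neg_mul, div_mul_cancel₀ _ hcd, add_neg_cancel])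
  have hmul : (a + b * Complex.I) * conj (c + Complex.I * d)
      = -t * (Complex.normSq (c + Complex.I * d) : ℂ) := by
    rw [Complex.normSq_eq_conj_mul_self]
    simp only [t, neg_neg]
    field_simp
  rw [hmul, Complex.im_mul_ofReal, Complex.neg_im]
  exact mul_nonneg (neg_nonneg.2 ht) (Complex.normSq_nonneg _)

theorem q_two_expand (hh : IsLaw T h) (hl : l ∈ T) (hu : u ∈ T) (hne : l ≠ u) (z : ι → ℂ)
    (s t : ℂ) : q T h (Function.update (Function.update z u t) l s) x
      = q T h (Function.update (Function.update z u 0) l 0) x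
        + q (T.erase l) h (Function.update z u 0) x * s
        + t * (q (T.erase u) h (Function.update z l 0) x + s * q ((T.erase l).erase u) h z x) := by
  have hu' : u ∈ T.erase l := Finset.mem_erase.2 ⟨hne.symm, hu⟩
  rw [q_update hl (hh l hl).2, Function.update_comm hne.symm t 0 z, q_update hu (hh u hu).2,
    ← Function.update_comm hne.symm (0 : ℂ) 0 z, q_update hu' (hh u hu).2]
  ring

theorem q_erase_expand (hh : IsLaw T h) (hl : l ∈ T) (hne : l ≠ u) (z : ι → ℂ) (s : ℂ) :
    q (T.erase u) h (Function.update z l s) x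
      = q (T.erase u) h (Function.update z l 0) x + s * q ((T.erase l).erase u) h z x := by
  rw [q_update (Finset.mem_erase.2 ⟨hne, hl⟩) (hh l hl).2, Finset.erase_right_comm]

theorem rayleigh_im_upper (hh : IsLaw T h) (hl : l ∈ T) (hu : u ∈ T) (hne : l ≠ u) (hx : IsHerm x)
    {z : ι → ℂ} (hz : ∀ v, 0 < (z v).im) :
    0 ≤ ((q T h (Function.update (Function.update z u 0) l 0) x
        + q (T.erase l) h (Function.update z u 0) x * Complex.I)
      * conj (q (T.erase u) h (Function.update z l 0) x
        + Complex.I * q ((T.erase l).erase u) h z x)).im := by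
  apply im_mul_conj_nonneg
  · rw [← q_erase_expand hh hl hne z Complex.I]
    refine q_ne_zero (hh.mono (Finset.erase_subset _ _)) (fun v _ => ?_) fun p _ w _ => hx p w
    rcases eq_or_ne v l with rfl | hvl
    · simp
    · rw [Function.update_of_ne hvl]; exact hz v
  · intro t ht
    rw [← q_two_expand hh hl hu hne z Complex.I t]
    refine q_ne_zero hh (fun v _ => ?_) fun p _ w _ => hx p w
    rcases eq_or_ne v l with rfl | hvl
    · simp
    · rw [Function.update_of_ne hvl]
      rcases eq_or_ne v u with rfl | hvu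
      · simpa using ht
      · rw [Function.update_of_ne hvu]; exact hz v

theorem continuous_q_update (hh : IsLaw T h) (g : ℝ → ι → ℂ) (hg : Continuous g) :
    Continuous fun ε => q T h (g ε) x :=
  Continuous.comp (g := fun v : (ι → ℂ) × (ι → ι → ℂ) => q T h v.1 v.2) (f := fun ε => (g ε, x))
    (isHyp hh).cont (hg.prodMk continuous_const)

/-- The complex form of Rayleigh's inequality. -/
theorem rayleigh_im (hh : IsLaw T h) (hl : l ∈ T) (hu : u ∈ T) (hne : l ≠ u) (hx : IsHerm x)
    (Z : ι → ℝ) :
    0 ≤ ((q T h (Function.update (Function.update (ofR Z) u 0) l 0) x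
        + q (T.erase l) h (Function.update (ofR Z) u 0) x * Complex.I)
      * conj (q (T.erase u) h (Function.update (ofR Z) l 0) x
        + Complex.I * q ((T.erase l).erase u) h (ofR Z) x)).im := by
  have hz : Continuous fun (ε : ℝ) (v : ι) => (Z v : ℂ) + Complex.I * ε := by fun_prop
  have k1 := continuous_q_update (x := x) hh _ ((hz.update u (continuous_const (y := (0 : ℂ)))).update l
    (continuous_const (y := (0 : ℂ))))
  have k2 := continuous_q_update (x := x) (hh.mono (Finset.erase_subset l T)) _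
    (hz.update u (continuous_const (y := (0 : ℂ))))
  have k3 := continuous_q_update (x := x) (hh.mono (Finset.erase_subset u T)) _
    (hz.update l (continuous_const (y := (0 : ℂ))))
  have k4 := continuous_q_update (x := x)
    (hh.mono ((Finset.erase_subset u (T.erase l)).trans (Finset.erase_subset l T))) _ hz
  have hg := Complex.continuous_im.comp ((k1.add (k2.mul (continuous_const (y := Complex.I)))).mul
    (Complex.continuous_conj.comp (k3.add ((continuous_const (y := Complex.I)).mul k4))))
  have h0 := ge_of_tendsto (hg.continuousWithinAt (s := Set.Ioi 0) (x := 0))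
    (b := (0 : ℝ)) (Filter.eventually_of_mem self_mem_nhdsWithin fun ε hε =>
      rayleigh_im_upper hh hl hu hne hx fun v => by simpa using Set.mem_Ioi.1 hε)
  have hz0 : (fun v : ι => (Z v : ℂ) + Complex.I * ((0 : ℝ) : ℂ)) = ofR Z := by
    funext v; simp [ofR]
  simp only [Pi.add_apply, Pi.mul_apply, Function.comp_apply] at h0
  rw [hz0] at h0
  exact h0

/-- Rayleigh's inequality, at every real point. -/
theorem rayleigh (hh : IsLaw T h) (hl : l ∈ T) (hu : u ∈ T) (hne : l ≠ u) (hx : IsHerm x)
    (Z : ι → ℝ) :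
    qR T h Z x * qR ((T.erase l).erase u) h Z x
      ≤ qR (T.erase l) h Z x * qR (T.erase u) h Z x := by
  have hu' : u ∈ T.erase l := Finset.mem_erase.2 ⟨hne.symm, hu⟩
  have hl' : l ∈ T.erase u := Finset.mem_erase.2 ⟨hne, hl⟩
  have hupd : ∀ (W : ι → ℝ) (p : ι), Function.update (ofR W) p 0
      = ofR (Function.update W p 0) := by
    intro W p; funext v; rcases eq_or_ne v p with rfl | hv <;> simp [ofR, *]
  have h0 := rayleigh_im hh hl hu hne hx Z
  simp only [hupd, q_ofR hx, map_add, map_mul, Complex.conj_ofReal, Complex.conj_I, Complex.mul_im,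
    Complex.add_re, Complex.add_im, Complex.mul_re, Complex.ofReal_re, Complex.ofReal_im,
    Complex.I_re, Complex.I_im, Complex.neg_re, Complex.neg_im] at h0
  have e1 := qR_update (Z := Z) (x := x) hl hh (Z l)
  have e2 := qR_update (Z := Z) (x := x) hu' (hh.mono (Finset.erase_subset _ _)) (Z u)
  have e3 := qR_update (Z := Z) (x := x) hl' (hh.mono (Finset.erase_subset _ _)) (Z l)
  have e4 := qR_update (Z := Function.update Z l 0) (x := x) hu hh (Z u)
  rw [Function.update_eq_self] at e1 e2 e3
  rw [Function.update_eq_self_iff.2 (by simp [Function.update_of_ne hne.symm])] at e4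
  rw [Finset.erase_right_comm] at e3
  rw [Function.update_comm hne] at e4
  rw [e1, e4, e2, e3]
  nlinarith

end Vale.Agent.P078.Local
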