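import Vale.Agent.P078.Local.Stable.Garding

/-!
# The colour mixture polynomial

`q T h z x` is the expected determinant of `diag z` minus the pinching of `x` by independent random
colours on the finite set `T` of sites, site `l` having the law `h l`. It is nonzero for `x`
Hermitian and `z` in the upper half plane, by induction on the sites with a mixed law.
-/

namespace Vale.Agent.P078.Local

open Polynomial Matrix
open scoped ComplexConjugate

variable {ι : Type*} [DecidableEq ι] {r : ℕ}

/-- `h l` is a probability vector for each site of `T`. -/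
def IsLaw (T : Finset ι) (h : ι → Fin r → ℝ) : Prop :=
  ∀ l ∈ T, (∀ c, 0 ≤ h l c) ∧ ∑ c, h l c = 1

omit [DecidableEq ι] in
theorem IsLaw.mono {T U : Finset ι} {h : ι → Fin r → ℝ} (hl : IsLaw T h) (hU : U ⊆ T) :
    IsLaw U h := fun l hlU => hl l (hU hlU)

/-- `diag z - S_c x` on the sites of `T`. -/
def colMatrix (T : Finset ι) (c : T → Fin r) (z : ι → ℂ) (x : ι → ι → ℂ) : Matrix T T ℂ :=
  fun a b => (if a = b then z a else 0) - (if c a = c b then x a b else 0)

/-- The expected determinant of `diag z - S_c x` on `T`. -/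
noncomputable def q (T : Finset ι) (h : ι → Fin r → ℝ) (z : ι → ℂ) (x : ι → ι → ℂ) : ℂ :=
  ∑ c : T → Fin r, (∏ l : T, (h l (c l) : ℂ)) * (colMatrix T c z x).det

/-- The law in which site `l` has colour `c`. -/
def pure (h : ι → Fin r → ℝ) (l : ι) (c : Fin r) : ι → Fin r → ℝ :=
  Function.update h l (Pi.single c 1)

theorem IsLaw.pure {T : Finset ι} {h : ι → Fin r → ℝ} (hl : IsLaw T h) (l : ι) (c : Fin r) :
    IsLaw T (pure h l c) := by
  intro u hu
  rcases eq_or_ne u l with rfl | hne
  · simp only [Local.pure, Function.update_self]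
    refine ⟨fun d => ?_, by simp⟩
    rcases eq_or_ne d c with rfl | hd <;> simp [*]
  · simp only [Local.pure, Function.update_of_ne hne]
    exact hl u hu

theorem q_congr {T : Finset ι} {h h' : ι → Fin r → ℝ} {z z' : ι → ℂ} {x x' : ι → ι → ℂ}
    (hh : ∀ l ∈ T, h l = h' l) (hz : ∀ l ∈ T, z l = z' l)
    (hx : ∀ l ∈ T, ∀ u ∈ T, x l u = x' l u) : q T h z x = q T h' z' x' := by
  refine Finset.sum_congr rfl fun c _ => ?_
  congr 1
  · exact Finset.prod_congr rfl fun l _ => by rw [hh l l.2]
  · congr 1
    ext a b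
    simp only [colMatrix]
    rw [hz a a.2, hx a a.2 b b.2]

theorem q_empty (h : ι → Fin r → ℝ) (z : ι → ℂ) (x : ι → ι → ℂ) : q ∅ h z x = 1 := by
  rw [q, Fintype.sum_unique]
  simp

/-- `q` is linear in the law of each site. -/
theorem q_linear {T : Finset ι} {l : ι} (hl : l ∈ T) (h : ι → Fin r → ℝ) (z : ι → ℂ)
    (x : ι → ι → ℂ) : q T h z x = ∑ c, (h l c : ℂ) * q T (pure h l c) z x := by
  simp only [q, Finset.mul_sum]
  rw [Finset.sum_comm]
  refine Finset.sum_congr rfl fun c _ => ?_
  have hprod : ∀ g : ι → Fin r → ℝ, (∏ a : T, (g a (c a) : ℂ))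
      = (g l (c ⟨l, hl⟩) : ℂ) * ∏ a ∈ Finset.univ.erase (⟨l, hl⟩ : T), (g a (c a) : ℂ) :=
    fun g => (Finset.mul_prod_erase Finset.univ (fun a : T => (g a (c a) : ℂ))
      (Finset.mem_univ (⟨l, hl⟩ : T))).symm
  have hrest : ∀ d, ∀ a ∈ Finset.univ.erase (⟨l, hl⟩ : T),
      (pure h l d a (c a) : ℂ) = h a (c a) := by
    intro d a ha
    have : (a : ι) ≠ l := fun he => (Finset.ne_of_mem_erase ha) (Subtype.ext he)
    simp [Local.pure, Function.update_of_ne this]
  rw [Finset.sum_eq_single (c ⟨l, hl⟩)]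
  · rw [hprod h, hprod (pure h l (c ⟨l, hl⟩)), Finset.prod_congr rfl (hrest _)]
    simp [Local.pure, mul_assoc]
  · intro d _ hd
    rw [hprod (pure h l d)]
    simp [Local.pure, Pi.single_eq_of_ne (Ne.symm hd)]
  · simp

/-- Colourings of `T` are a colour of `l` and a colouring of the other sites. -/
def colEquiv {T : Finset ι} {l : ι} (hl : l ∈ T) :
    (T → Fin r) ≃ Fin r × (↥(T.erase l) → Fin r) where
  toFun c := (c ⟨l, hl⟩, fun a => c ⟨a, Finset.mem_of_mem_erase a.2⟩)
  invFun p a := if ha : (a : ι) = l then p.1 else p.2 ⟨a, Finset.mem_erase.2 ⟨ha, a.2⟩⟩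
  left_inv c := by
    funext a
    by_cases ha : (a : ι) = l
    · simp only [ha, dite_true]; congr 1; exact Subtype.ext ha.symm
    · simp [ha]
  right_inv p := by
    refine Prod.ext (by simp) (funext fun a => ?_)
    simp [Finset.ne_of_mem_erase a.2]

/-- The minor at `l`. -/
theorem det_updateRow_single {T : Finset ι} {l : ι} (hl : l ∈ T) (c : T → Fin r) (z : ι → ℂ)
    (x : ι → ι → ℂ) :
    ((colMatrix T c z x).updateRow ⟨l, hl⟩ (Pi.single ⟨l, hl⟩ 1)).det
      = (colMatrix (T.erase l) (colEquiv hl c).2 z x).det := by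
  set M := (colMatrix T c z x).updateRow ⟨l, hl⟩ (Pi.single ⟨l, hl⟩ 1) with hM
  rw [twoBlockTriangular_det' M (fun a : T => (a : ι) = l) (fun i hi j hj => by
    have hi' : i = ⟨l, hl⟩ := Subtype.ext hi
    subst hi'
    simp [hM, Pi.single_eq_of_ne (fun he : j = ⟨l, hl⟩ => hj (congrArg Subtype.val he))])]
  have : Subsingleton {a : T // (a : ι) = l} :=
    ⟨fun a b => Subtype.ext (Subtype.ext (a.2.trans b.2.symm))⟩
  refine (congrArg (· * _) ((det_eq_elem_of_subsingleton _ ⟨⟨l, hl⟩, rfl⟩).trans
    (show _ = (1 : ℂ) by simp [hM, toSquareBlockProp_def]))).trans ((one_mul _).trans ?_)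
  let e : ↥(T.erase l) ≃ {a : T // ¬ (a : ι) = l} :=
    { toFun := fun a => ⟨⟨a, Finset.mem_of_mem_erase a.2⟩, Finset.ne_of_mem_erase a.2⟩
      invFun := fun a => ⟨a.1, Finset.mem_erase.2 ⟨a.2, a.1.2⟩⟩
      left_inv := fun a => rfl
      right_inv := fun a => rfl }
  rw [← det_submatrix_equiv_self e]
  congr 1
  ext a b
  have ha : (⟨a, Finset.mem_of_mem_erase a.2⟩ : T) ≠ ⟨l, hl⟩ :=
    fun he => Finset.ne_of_mem_erase a.2 (congrArg Subtype.val he)
  simp only [submatrix_apply, e, hM, toSquareBlockProp_def, Matrix.of_apply, Equiv.coe_fn_mk, updateRow_ne ha, colMatrix, colEquiv, Subtype.mk.injEq]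
  simp only [Subtype.coe_inj]
  rcases eq_or_ne a b with rfl | hab
  · simp
  · simp only [hab, if_false]
    congr 1

/-- `q` is affine in `z l`, and its slope is `q` of the other sites. -/
theorem q_update {T : Finset ι} {l : ι} (hl : l ∈ T) {h : ι → Fin r → ℝ}
    (hsum : ∑ c, h l c = 1) (z : ι → ℂ) (x : ι → ι → ℂ) (w : ℂ) :
    q T h (Function.update z l w) x
      = q T h (Function.update z l 0) x + w * q (T.erase l) h z x := by
  have hdet : ∀ c : T → Fin r, (colMatrix T c (Function.update z l w) x).det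
      = (colMatrix T c (Function.update z l 0) x).det
        + w * (colMatrix (T.erase l) (colEquiv hl c).2 z x).det := by
    intro c
    set B := colMatrix T c (Function.update z l 0) x with hB
    have hne : ∀ a : T, a ≠ ⟨l, hl⟩ → (a : ι) ≠ l := fun a ha he => ha (Subtype.ext he)
    have hA : colMatrix T c (Function.update z l w) x
        = B.updateRow ⟨l, hl⟩ (B ⟨l, hl⟩ + w • Pi.single ⟨l, hl⟩ 1) := by
      ext a b
      rcases eq_or_ne a ⟨l, hl⟩ with rfl | ha
      · rcases eq_or_ne b ⟨l, hl⟩ with rfl | hb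
        · simp [hB, colMatrix]; ring
        · simp [hB, colMatrix, Ne.symm hb]
      · simp [hB, colMatrix, updateRow_ne ha, Function.update_of_ne (hne a ha)]
    rw [hA, det_updateRow_add, det_updateRow_smul, updateRow_eq_self,
      det_updateRow_single hl c (Function.update z l 0) x]
    congr 3
    ext a b
    simp [colMatrix, Function.update_of_ne (Finset.ne_of_mem_erase a.2)]
  have hfib : ∑ c : T → Fin r, (∏ a : T, (h a (c a) : ℂ))
      * (colMatrix (T.erase l) (colEquiv hl c).2 z x).det = q (T.erase l) h z x := by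
    rw [← Equiv.sum_comp (colEquiv hl).symm, Fintype.sum_prod_type, Finset.sum_comm, q]
    refine Finset.sum_congr rfl fun c' _ => ?_
    have hw : ∀ d, (∏ a : T, (h a (((colEquiv hl).symm (d, c')) a) : ℂ))
        = (h l d : ℂ) * ∏ a : ↥(T.erase l), (h a (c' a) : ℂ) := by
      intro d
      rw [← Finset.mul_prod_erase Finset.univ _ (Finset.mem_univ (⟨l, hl⟩ : T))]
      congr 1
      · simp [colEquiv]
      · refine Finset.prod_bij' (fun a ha => ⟨a.1, Finset.mem_erase.2
          ⟨fun he => Finset.ne_of_mem_erase ha (Subtype.ext he), a.2⟩⟩)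
          (fun b _ => ⟨b.1, Finset.mem_of_mem_erase b.2⟩) ?_ ?_ ?_ ?_ ?_
        · intro a ha; simp
        · intro b _
          refine Finset.mem_erase.2 ⟨fun he => ?_, Finset.mem_univ _⟩
          exact Finset.ne_of_mem_erase b.2 (congrArg Subtype.val he)
        · intro a ha; rfl
        · intro b _; rfl
        · intro a ha
          have : (a : ι) ≠ l := fun he => Finset.ne_of_mem_erase ha (Subtype.ext he)
          simp [colEquiv, this]
    simp only [hw, Equiv.apply_symm_apply]
    rw [← Finset.sum_mul, ← Finset.sum_mul, ← Complex.ofReal_sum, hsum]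
    simp
  rw [← hfib, q, q, Finset.mul_sum, ← Finset.sum_add_distrib]
  refine Finset.sum_congr rfl fun c _ => ?_
  rw [hdet c]
  ring

theorem q_split {T : Finset ι} {l : ι} (hl : l ∈ T) {h : ι → Fin r → ℝ}
    (hsum : ∑ c, h l c = 1) (z : ι → ℂ) (x : ι → ι → ℂ) :
    q T h z x = q T h (Function.update z l 0) x + z l * q (T.erase l) h z x := by
  simpa using q_update hl hsum z x (z l)

/-- A matrix `diag z - x` with `x` Hermitian and `z` in the upper half plane is invertible. -/
theorem det_ne_zero_of_im_pos {m : Type*} [Fintype m] [DecidableEq m] (w : m → ℂ)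
    (hw : ∀ a, 0 < (w a).im) (X : Matrix m m ℂ) (hX : ∀ a b, conj (X a b) = X b a) :
    ((diagonal w) - X).det ≠ 0 := by
  intro hdet
  obtain ⟨v, hv, hzero⟩ := exists_mulVec_eq_zero_iff.2 hdet
  set S := ∑ a, conj (v a) * (X *ᵥ v) a with hS
  have hSreal : S.im = 0 := by
    refine Complex.conj_eq_iff_im.1 ?_
    simp only [hS, mulVec, dotProduct, Finset.mul_sum, map_sum, map_mul, Complex.conj_conj, hX]
    rw [Finset.sum_comm]
    exact Finset.sum_congr rfl fun a _ => Finset.sum_congr rfl fun b _ => by ring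
  have hsum : ∑ a, (Complex.normSq (v a) : ℂ) * w a = S := by
    refine Finset.sum_congr rfl fun a _ => ?_
    have := congrFun hzero a
    simp only [sub_mulVec, Pi.sub_apply, mulVec_diagonal, Pi.zero_apply, sub_eq_zero] at this
    rw [← this, Complex.normSq_eq_conj_mul_self]
    ring
  have him := congrArg Complex.im hsum
  rw [hSreal, Complex.im_sum] at him
  obtain ⟨a, ha⟩ := Function.ne_iff.1 hv
  have hpos : 0 < ∑ a, ((Complex.normSq (v a) : ℂ) * w a).im := by
    refine Finset.sum_pos' (fun b _ => ?_) ⟨a, Finset.mem_univ a, ?_⟩ <;>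
      simp only [Complex.mul_im, Complex.ofReal_re, Complex.ofReal_im, zero_mul, add_zero]
    · exact mul_nonneg (Complex.normSq_nonneg _) (hw b).le
    · exact mul_pos (Complex.normSq_pos.2 (by simpa using ha)) (hw a)
  linarith

/-- If every pure law at `l` is stable then so is the mixture. -/
theorem mix_ne_zero {a : ℂ} (ha : a ≠ 0) {R : Fin r → ℂ}
    (hpure : ∀ c w, 0 < (w : ℂ).im → R c + w * a ≠ 0) {h : Fin r → ℝ} (h0 : ∀ c, 0 ≤ h c)
    {w : ℂ} (hw : 0 < w.im) : (∑ c, (h c : ℂ) * R c) + w * a ≠ 0 := by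
  intro hz
  have hm : ∀ c, (-(R c / a)).im ≤ 0 := fun c => not_lt.1 fun hc => hpure c _ hc (by
    rw [neg_mul, div_mul_cancel₀ _ ha, add_neg_cancel])
  have : w = ∑ c, (h c : ℂ) * -(R c / a) := by
    have h1 : w * a = -∑ c, (h c : ℂ) * R c := eq_neg_of_add_eq_zero_right hz
    calc w = w * a / a := (mul_div_cancel_right₀ _ ha).symm
      _ = _ := by
        rw [h1, neg_div, Finset.sum_div, ← Finset.sum_neg_distrib]
        exact Finset.sum_congr rfl fun c _ => by ring
  rw [this, Complex.im_sum] at hw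
  have hle : ∑ c, ((h c : ℂ) * -(R c / a)).im ≤ 0 := Finset.sum_nonpos fun c _ => by
    rw [Complex.im_ofReal_mul]
    exact mul_nonpos_of_nonneg_of_nonpos (h0 c) (hm c)
  linarith

/-- Stability: for Hermitian `x` and `z` in the upper half plane `q` has no zero. -/
theorem q_ne_zero {T : Finset ι} {h : ι → Fin r → ℝ} (hh : IsLaw T h) {z : ι → ℂ}
    (hz : ∀ l ∈ T, 0 < (z l).im) {x : ι → ι → ℂ}
    (hx : ∀ l ∈ T, ∀ u ∈ T, conj (x l u) = x u l) : q T h z x ≠ 0 := by
  induction hn : T.card using Nat.strong_induction_on generalizing T h z with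
  | _ n IH =>
    suffices key : ∀ M : Finset ι, ∀ g : ι → Fin r → ℝ, IsLaw T g →
        (∀ u ∈ T, u ∉ M → ∃ c, g u = Pi.single c 1) →
        ∀ z : ι → ℂ, (∀ l ∈ T, 0 < (z l).im) → q T g z x ≠ 0 from
      key T h hh (fun u hu hu' => absurd hu hu') z hz
    intro M
    induction M using Finset.induction_on with
    | empty =>
      intro g _ hdet z hz
      have hex : ∀ a : T, ∃ c, g a = Pi.single c 1 := fun a => hdet a a.2 (Finset.notMem_empty _)
      choose c hc using hex
      rw [q, Finset.sum_eq_single c]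
      · have h1 : (∏ a : T, (g a (c a) : ℂ)) = 1 := Finset.prod_eq_one fun a _ => by simp [hc a]
        rw [h1, one_mul]
        have h2 : colMatrix T c z x = diagonal (fun a : T => z a)
            - Matrix.of (fun a b : T => if c a = c b then x a b else 0) := by
          ext a b; simp [colMatrix, diagonal_apply]
        rw [h2]
        refine det_ne_zero_of_im_pos (fun a : T => z a) (fun a => hz a a.2) _ fun a b => ?_
        by_cases hcab : c a = c b
        · simp [hcab, hx a a.2 b b.2]
        · simp [hcab, Ne.symm hcab]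
      · intro d _ hd
        obtain ⟨a, ha⟩ := Function.ne_iff.1 hd
        rw [Finset.prod_eq_zero (Finset.mem_univ a) (by simp [hc a, Pi.single_eq_of_ne ha]),
          zero_mul]
      · simp
    | @insert l M hlM IHM =>
      intro g hg hdet z hz
      by_cases hlT : l ∈ T
      · have hpure : ∀ c z', (∀ u ∈ T, 0 < ((z' : ι → ℂ) u).im) →
            q T (pure g l c) z' x ≠ 0 := by
          intro c z' hz'
          refine IHM _ (hg.pure l c) (fun u hu huM => ?_) z' hz'
          rcases eq_or_ne u l with rfl | hne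
          · exact ⟨c, by simp [Local.pure]⟩
          · obtain ⟨d, hd⟩ := hdet u hu (by simp [hne, huM])
            exact ⟨d, by simp [Local.pure, Function.update_of_ne hne, hd]⟩
        have hsmall : q (T.erase l) g z x ≠ 0 :=
          IH _ (hn ▸ Finset.card_erase_lt_of_mem hlT) (hg.mono (Finset.erase_subset _ _))
            (fun u hu => hz u (Finset.mem_of_mem_erase hu))
            (fun a ha b hb => hx a (Finset.mem_of_mem_erase ha) b (Finset.mem_of_mem_erase hb)) rfl
        rw [q_split hlT (hg l hlT).2, q_linear hlT]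
        refine mix_ne_zero hsmall (fun c w hw => ?_) (hg l hlT).1 (hz l hlT)
        have hc : q (T.erase l) (pure g l c) z x = q (T.erase l) g z x :=
          q_congr (fun u hu => by
            simp [Local.pure, Function.update_of_ne (Finset.ne_of_mem_erase hu)])
            (fun _ _ => rfl) (fun _ _ _ _ => rfl)
        rw [← hc, ← q_update hlT ((hg.pure l c) l hlT).2 z x w]
        refine hpure c _ fun u hu => ?_
        rcases eq_or_ne u l with rfl | hne
        · simpa using hw
        · simpa [Function.update_of_ne hne] using hz u hu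
      · exact IHM g hg (fun u hu huM => hdet u hu (by
          simp only [Finset.mem_insert, not_or]
          exact ⟨fun he => hlT (he ▸ hu), huM⟩)) z hz

theorem colMatrix_add_smul (T : Finset ι) (c : T → Fin r) (a b : (ι → ℂ) × (ι → ι → ℂ)) (t : ℂ) :
    colMatrix T c (b + t • a).1 (b + t • a).2
      = colMatrix T c b.1 b.2 + t • colMatrix T c a.1 a.2 := by
  ext u v
  simp only [colMatrix, Prod.fst_add, Prod.snd_add, Prod.smul_fst, Prod.smul_snd, Pi.add_apply,
    Pi.smul_apply, Matrix.add_apply, Matrix.smul_apply, smul_eq_mul]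
  split_ifs <;> ring

theorem q_conj (T : Finset ι) (h : ι → Fin r → ℝ) (z : ι → ℂ) {x : ι → ι → ℂ}
    (hx : ∀ l ∈ T, ∀ u ∈ T, conj (x l u) = x u l) :
    conj (q T h z x) = q T h (fun l => conj (z l)) x := by
  simp only [q, map_sum, map_mul, map_prod, Complex.conj_ofReal]
  refine Finset.sum_congr rfl fun c _ => ?_
  congr 1
  rw [← det_transpose (colMatrix T c (fun l => conj (z l)) x), RingHom.map_det]
  congr 1
  ext a b
  simp only [RingHom.mapMatrix_apply, Matrix.map_apply, colMatrix, transpose_apply, map_sub]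
  rcases eq_or_ne a b with rfl | hne
  · simp [hx a a.2 a a.2]
  · by_cases hcab : c a = c b
    · simp [hne, Ne.symm hne, hcab, hx a a.2 b b.2]
    · simp [hne, Ne.symm hne, hcab, Ne.symm hcab]

/-- The real points: real `z` and Hermitian `x`. -/
def realPts (ι : Type*) : Submodule ℝ ((ι → ℂ) × (ι → ι → ℂ)) where
  carrier := {v | (∀ l, conj (v.1 l) = v.1 l) ∧ ∀ l u, conj (v.2 l u) = v.2 u l}
  zero_mem' := by simp
  add_mem' := fun ha hb => by
    refine ⟨fun l => ?_, fun l u => ?_⟩
    · simp [ha.1 l, hb.1 l]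
    · simp [ha.2 l u, hb.2 l u]
  smul_mem' := fun c v hv => by
    refine ⟨fun l => ?_, fun l u => ?_⟩
    · simp [Complex.real_smul, hv.1 l]
    · simp [Complex.real_smul, hv.2 l u]

/-- The direction `(1, 0)`. -/
def unit (ι : Type*) : (ι → ℂ) × (ι → ι → ℂ) := (fun _ => 1, 0)

theorem q_unit {T : Finset ι} {h : ι → Fin r → ℝ} (hh : IsLaw T h) :
    q T h (unit ι).1 (unit ι).2 = 1 := by
  have : ∀ c : T → Fin r, (colMatrix T c (unit ι).1 (unit ι).2) = 1 := by
    intro c; ext a b; simp [colMatrix, unit, Matrix.one_apply]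
  simp only [q, this, det_one, mul_one]
  rw [← Fintype.prod_sum (fun (a : T) d => (h a d : ℂ))]
  exact Finset.prod_eq_one fun a _ => by rw [← Complex.ofReal_sum, (hh a a.2).2, Complex.ofReal_one]

/-- `q` is a hyperbolic form of degree `#T` in the direction `(1, 0)`. -/
theorem isHyp {T : Finset ι} {h : ι → Fin r → ℝ} (hh : IsLaw T h) :
    IsHyp (fun v : (ι → ℂ) × (ι → ι → ℂ) => q T h v.1 v.2) T.card (realPts ι) (unit ι) := by
  have hom : ∀ (c : ℂ) (v : (ι → ℂ) × (ι → ι → ℂ)),
      q T h (c • v).1 (c • v).2 = c ^ T.card * q T h v.1 v.2 := by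
    intro c v
    simp only [q, Finset.mul_sum]
    refine Finset.sum_congr rfl fun d _ => ?_
    have : colMatrix T d (c • v).1 (c • v).2 = c • colMatrix T d v.1 v.2 := by
      ext a b; simp [colMatrix, mul_sub]
    rw [this, det_smul, Fintype.card_coe]
    ring
  refine ⟨?_, fun a b => ?_, hom, ⟨by simp [unit], by simp [unit]⟩, ?_, fun v hv t ht => ?_⟩
  · refine continuous_finsetSum _ fun c _ => continuous_const.mul (Continuous.matrix_det ?_)
    refine continuous_matrix fun u w => ?_
    simp only [colMatrix]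
    split_ifs <;> fun_prop
  · refine ⟨∑ c : T → Fin r, C (∏ l : T, (h l (c l) : ℂ))
        * ((X : ℂ[X]) • (colMatrix T c a.1 a.2).map C + (colMatrix T c b.1 b.2).map C).det,
      ?_, ?_, fun t => ?_⟩
    · refine natDegree_sum_le_of_forall_le _ _ fun c _ => ?_
      refine (natDegree_C_mul_le _ _).trans ?_
      simpa using natDegree_det_X_add_C_le (colMatrix T c a.1 a.2) (colMatrix T c b.1 b.2)
    · simp only [finsetSum_coeff, coeff_C_mul, q]
      refine Finset.sum_congr rfl fun c _ => ?_
      rw [show T.card = Fintype.card T from (Fintype.card_coe T).symm, coeff_det_X_add_C_card]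
    · simp only [eval_finsetSum, eval_mul, eval_C, q]
      refine Finset.sum_congr rfl fun c _ => ?_
      rw [colMatrix_add_smul, ← coe_evalRingHom, RingHom.map_det]
      congr 2
      ext u v
      simp [RingHom.mapMatrix_apply, mul_comm t, add_comm]
  · show q T h (unit ι).1 (unit ι).2 ≠ 0
    rw [q_unit hh]; exact one_ne_zero
  · show q T h (v + t • unit ι).1 (v + t • unit ι).2 ≠ 0
    have hherm : ∀ l ∈ T, ∀ u ∈ T,
        conj ((v + t • unit ι).2 l u) = (v + t • unit ι).2 u l := by
      intro l _ u _; simp [unit, hv.2 l u]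
    rcases ht.lt_or_gt with hneg | hpos
    · intro hz
      have := congrArg conj hz
      rw [q_conj T h _ hherm, map_zero] at this
      refine q_ne_zero hh (fun l _ => ?_) hherm this
      simp [unit, Complex.conj_eq_iff_im.1 (hv.1 l)]
      linarith
    · refine q_ne_zero hh (fun l _ => ?_) hherm
      simp [unit, Complex.conj_eq_iff_im.1 (hv.1 l), hpos]

end Vale.Agent.P078.Local
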