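import Vale.Agent.P078.Local.Stable.Poly

/-!
# Valid points of the colour mixture

`Valid T h Z x` says that `(Z, x)` lies in the hyperbolicity cone of `q T h`. A point is valid on
`T` iff it is valid on `T.erase l` and `Z l` exceeds the mixture of `m T l h c Z x`; each `m` is
sublinear jointly in `(Z, x)` and decreases in `Z`.
-/

namespace Vale.Agent.P078.Local

open scoped ComplexConjugate

variable {ι : Type*} [DecidableEq ι] {r : ℕ}

/-- `x` is Hermitian. -/
def IsHerm (x : ι → ι → ℂ) : Prop := ∀ l u, conj (x l u) = x u l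

/-- A real field as a complex one. -/
def ofR (Z : ι → ℝ) : ι → ℂ := fun l => (Z l : ℂ)

/-- `(Z, x)` is in the hyperbolicity cone of `q T h`. -/
def Valid (T : Finset ι) (h : ι → Fin r → ℝ) (Z : ι → ℝ) (x : ι → ι → ℂ) : Prop :=
  (ofR Z, x) ∈ IsHyp.cone (fun v : (ι → ℂ) × (ι → ι → ℂ) => q T h v.1 v.2) (realPts ι) (unit ι)

/-- The value of `q` at a real point. -/
noncomputable def qR (T : Finset ι) (h : ι → Fin r → ℝ) (Z : ι → ℝ) (x : ι → ι → ℂ) : ℝ :=
  (q T h (ofR Z) x).re

/-- The expected Schur complement at `l` given that `l` has colour `c`. -/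
noncomputable def m (T : Finset ι) (l : ι) (h : ι → Fin r → ℝ) (c : Fin r) (Z : ι → ℝ)
    (x : ι → ι → ℂ) : ℝ :=
  -qR T (pure h l c) (Function.update Z l 0) x / qR (T.erase l) h Z x

section Basic

omit [DecidableEq ι]

theorem mem_realPts (Z : ι → ℝ) {x : ι → ι → ℂ} (hx : IsHerm x) :
    (ofR Z, x) ∈ realPts ι :=
  ⟨fun _ => Complex.conj_ofReal _, hx⟩

theorem ofR_add_e (Z : ι → ℝ) (x : ι → ι → ℂ) (t : ℝ) :
    (ofR Z, x) + (t : ℂ) • unit ι = (ofR (fun l => Z l + t), x) := by
  ext <;> simp [ofR, unit]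

theorem IsHerm.add {x y : ι → ι → ℂ} (hx : IsHerm x) (hy : IsHerm y) : IsHerm (x + y) :=
  fun l u => by simp [hx l u, hy l u]

theorem isHerm_zero : IsHerm (0 : ι → ι → ℂ) := fun _ _ => by simp

end Basic

theorem Valid.herm {T : Finset ι} {h : ι → Fin r → ℝ} {Z : ι → ℝ} {x : ι → ι → ℂ}
    (hv : Valid T h Z x) : IsHerm x := hv.1.2

variable {T U : Finset ι} {h h' : ι → Fin r → ℝ} {Z Z' : ι → ℝ} {x x' : ι → ι → ℂ} {l : ι}

theorem valid_iff : Valid T h Z x ↔
    IsHerm x ∧ ∀ t : ℝ, 0 ≤ t → q T h (ofR fun u => Z u + t) x ≠ 0 := by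
  constructor
  · intro hv
    refine ⟨hv.herm, fun t ht => ?_⟩
    have := hv.2 t ht
    rwa [ofR_add_e] at this
  · rintro ⟨hx, hne⟩
    refine ⟨mem_realPts Z hx, fun t ht => ?_⟩
    rw [ofR_add_e]
    exact hne t ht

theorem valid_congr (hh : ∀ u ∈ T, h u = h' u) (hZ : ∀ u ∈ T, Z u = Z' u) :
    Valid T h Z x ↔ Valid T h' Z' x := by
  simp only [valid_iff]
  refine and_congr_right fun _ => forall_congr' fun t => imp_congr_right fun _ => ?_
  rw [q_congr hh (z' := ofR fun u => Z' u + t) (fun u hu => by simp [ofR, hZ u hu])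
    (fun _ _ _ _ => rfl)]

theorem q_ofR_im (hx : IsHerm x) : (q T h (ofR Z) x).im = 0 := by
  refine Complex.conj_eq_iff_im.1 ?_
  rw [q_conj T h _ (fun a _ b _ => hx a b)]
  exact q_congr (fun _ _ => rfl) (fun a _ => Complex.conj_ofReal _) (fun _ _ _ _ => rfl)

theorem q_ofR (hx : IsHerm x) : q T h (ofR Z) x = (qR T h Z x : ℂ) :=
  Complex.ext rfl (by simp [q_ofR_im hx])

theorem continuous_qR_line (hh : IsLaw T h) :
    Continuous fun t : ℝ => qR T h (fun u => Z u + t) x := by
  have hc := Complex.continuous_re.comp ((isHyp hh).cont.comp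
    (show Continuous fun t : ℝ => ((ofR fun u => Z u + t), x) by unfold ofR; fun_prop))
  simpa [qR, Function.comp_def] using hc

/-- Far along `(1, 0)` the real value is positive. -/
theorem exists_qR_pos (hh : IsLaw T h) (Z : ι → ℝ) (x : ι → ι → ℂ) :
    ∃ R : ℝ, ∀ t : ℝ, R ≤ t → 0 < qR T h (fun u => Z u + t) x := by
  have hc : Continuous fun u : ℝ =>
      (q T h (unit ι + (u : ℂ) • (ofR Z, x)).1 (unit ι + (u : ℂ) • (ofR Z, x)).2).re :=
    Complex.continuous_re.comp ((isHyp hh).cont.comp (by fun_prop))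
  have h0 : (0 : ℝ) < (q T h (unit ι + ((0 : ℝ) : ℂ) • (ofR Z, x)).1
      (unit ι + ((0 : ℝ) : ℂ) • (ofR Z, x)).2).re := by
    simp [q_unit hh]
  obtain ⟨δ, hδ, hball⟩ := Metric.isOpen_iff.1 (isOpen_lt continuous_const hc) 0 h0
  refine ⟨2 / δ, fun t ht => ?_⟩
  have ht0 : 0 < t := lt_of_lt_of_le (by positivity) ht
  have hmem : t⁻¹ ∈ Metric.ball (0 : ℝ) δ := by
    rw [Metric.mem_ball, dist_zero_right, Real.norm_eq_abs, abs_of_pos (inv_pos.2 ht0),
      inv_lt_comm₀ ht0 hδ]
    refine lt_of_lt_of_le ?_ ht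
    rw [← one_div]
    exact div_lt_div_of_pos_right (by norm_num) hδ
  have hpos := hball hmem
  have hsc : (ofR (fun u => Z u + t), x)
      = (t : ℂ) • (unit ι + ((t⁻¹ : ℝ) : ℂ) • (ofR Z, x)) := by
    rw [smul_add, smul_smul, ← Complex.ofReal_mul, mul_inv_cancel₀ ht0.ne', Complex.ofReal_one,
      one_smul, add_comm, ofR_add_e]
  have := (isHyp hh).hom (t : ℂ) (unit ι + ((t⁻¹ : ℝ) : ℂ) • (ofR Z, x))
  rw [← hsc] at this
  change q T h _ _ = _ at this
  rw [qR, this, ← Complex.ofReal_pow, Complex.re_ofReal_mul]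
  exact mul_pos (pow_pos ht0 _) hpos

/-- A valid point has a positive value. -/
theorem Valid.pos (hh : IsLaw T h) (hv : Valid T h Z x) : 0 < qR T h Z x := by
  have hne : ∀ t : ℝ, 0 ≤ t → qR T h (fun u => Z u + t) x ≠ 0 := by
    intro t ht h0
    apply (valid_iff.1 hv).2 t ht
    rw [q_ofR hv.herm, h0, Complex.ofReal_zero]
  obtain ⟨R, hR⟩ := exists_qR_pos hh Z x
  by_contra hle
  rw [not_lt] at hle
  obtain ⟨t, ht, hz⟩ := intermediate_value_Icc (le_max_left 0 R)
    (continuous_qR_line (Z := Z) (x := x) hh).continuousOn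
    (show (0 : ℝ) ∈ Set.Icc _ _ from ⟨by simpa using hle, (hR _ (le_max_right 0 R)).le⟩)
  exact hne t ht.1 hz

theorem Valid.shift (hh : IsLaw T h) (hv : Valid T h Z x) {t : ℝ} (ht : 0 ≤ t) :
    Valid T h (fun u => Z u + t) x := by
  have := IsHyp.add_smul_e_mem hv (isHyp hh).e_mem ht
  rwa [ofR_add_e] at this

theorem q_zero_x (hh : IsLaw T h) (z : ι → ℂ) : q T h z 0 = ∏ u : T, z u := by
  have hdet : ∀ c : T → Fin r, (colMatrix T c z 0).det = ∏ u : T, z u := by
    intro c
    rw [← Matrix.det_diagonal]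
    congr 1
    ext a b
    simp [colMatrix, Matrix.diagonal_apply]
  simp only [q, hdet, ← Finset.sum_mul]
  rw [← Fintype.prod_sum (fun (a : T) d => (h a d : ℂ)),
    Finset.prod_eq_one fun a _ => by rw [← Complex.ofReal_sum, (hh a a.2).2, Complex.ofReal_one],
    one_mul]

theorem valid_zero_x (hh : IsLaw T h) (hW : ∀ u ∈ T, 0 < Z u) : Valid T h Z 0 := by
  refine valid_iff.2 ⟨isHerm_zero, fun t ht => ?_⟩
  rw [q_zero_x hh]
  refine Finset.prod_ne_zero_iff.2 fun u _ => ?_
  simp only [ofR, ne_eq, Complex.ofReal_eq_zero]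
  linarith [hW u u.2]

/-- Valid points are upward closed in `Z`. -/
theorem Valid.mono (hh : IsLaw T h) (hv : Valid T h Z x) (hle : ∀ u ∈ T, Z u ≤ Z' u) :
    Valid T h Z' x := by
  have := (isHyp hh).add_mem_of_closed (x := (ofR Z, x))
    (v := (ofR fun u => Z' u - Z u, (0 : ι → ι → ℂ))) hv fun ε hε => by
      rw [ofR_add_e]
      exact valid_zero_x hh fun u hu => by linarith [hle u hu]
  have heq : (ofR Z, x) + (ofR (fun u => Z' u - Z u), (0 : ι → ι → ℂ)) = (ofR Z', x) := by
    ext <;> simp [ofR]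
  rwa [heq] at this

/-- Sums of valid points are valid. -/
theorem Valid.add (hh : IsLaw T h) (h1 : Valid T h Z x) (h2 : Valid T h Z' x') :
    Valid T h (Z + Z') (x + x') := by
  have := (isHyp hh).add_mem h2 h1
  have heq : (ofR Z, x) + (ofR Z', x') = (ofR (Z + Z'), x + x') := by ext <;> simp [ofR]
  rwa [heq] at this

theorem Valid.smul (hh : IsLaw T h) (hv : Valid T h Z x) {a : ℝ} (ha : 0 < a) :
    Valid T h (fun u => a * Z u) ((a : ℂ) • x) := by
  have := (isHyp hh).smul_mem ha hv
  have heq : (a : ℂ) • (ofR Z, x) = (ofR (fun u => a * Z u), (a : ℂ) • x) := by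
    ext <;> simp [ofR]
  rwa [heq] at this

/-- A margin: a valid point stays valid a little below. -/
theorem Valid.exists_margin (hh : IsLaw T h) (hv : Valid T h Z x) :
    ∃ ε > (0 : ℝ), Valid T h (fun u => Z u - ε) x := by
  obtain ⟨W, hW, hxW, hWc⟩ := (isHyp hh).exists_open hv
  have hc : Continuous fun ε : ℝ => (ofR (fun u => Z u - ε), x) := by unfold ofR; fun_prop
  obtain ⟨δ, hδ, hball⟩ := Metric.isOpen_iff.1 (hW.preimage hc) 0 (by simpa using hxW)
  refine ⟨δ / 2, by linarith, hWc _ (hball ?_) (mem_realPts _ hv.herm)⟩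
  rw [Metric.mem_ball, dist_zero_right, Real.norm_eq_abs, abs_of_pos (half_pos hδ)]
  linarith

theorem qR_update (hl : l ∈ T) (hh : IsLaw T h) (w : ℝ) :
    qR T h (Function.update Z l w) x
      = qR T h (Function.update Z l 0) x + w * qR (T.erase l) h Z x := by
  have h1 : ∀ v : ℝ, ofR (Function.update Z l v) = Function.update (ofR Z) l (v : ℂ) := by
    intro v; ext u; rcases eq_or_ne u l with rfl | hne <;> simp [ofR, *]
  simp only [qR, h1]
  rw [q_update hl (hh l hl).2, Complex.add_re, Complex.re_ofReal_mul]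
  simp

/-- Deleting a site keeps validity. -/
theorem Valid.erase (hh : IsLaw T h) (hl : l ∈ T) (hv : Valid T h Z x) :
    Valid (T.erase l) h Z x := by
  have hh' : IsLaw (T.erase l) h := hh.mono (Finset.erase_subset _ _)
  refine valid_iff.2 ⟨hv.herm, fun t ht hz => ?_⟩
  obtain ⟨ε, hε, hm⟩ := (hv.shift hh ht).exists_margin hh
  set Y : ι → ℝ := fun u => Z u + t with hY
  obtain ⟨R, hR⟩ := exists_qR_pos hh' Y x
  set L := max R 0
  have hdir : ∀ (M L' : ℝ), qR T h (fun u => Function.update Y l (Y l + M) u + L') x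
      = qR T h (fun u => Y u + L') x + M * qR (T.erase l) h (fun u => Y u + L') x := by
    intro M L'
    have e1 : (fun u => Function.update Y l (Y l + M) u + L')
        = Function.update (fun u => Y u + L') l (Y l + L' + M) := by
      ext u; rcases eq_or_ne u l with rfl | hne <;> simp [*]; ring
    have e2 := qR_update (Z := fun u => Y u + L') (x := x) hl hh (Y l + L')
    rw [e1, qR_update hl hh, add_mul, ← add_assoc, ← e2, Function.update_eq_self_iff.2 rfl]
  have hzero : qR (T.erase l) h Y x = 0 := by rw [qR, hz, Complex.zero_re]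
  have hp : 0 < qR (T.erase l) h (fun u => Y u + L) x := hR L (le_max_left _ _)
  set K := (1 + L / ε) ^ T.card * |qR T h Y x|
  have hbound : ∀ M : ℝ, 0 ≤ M →
      qR T h (fun u => Y u + L) x + M * qR (T.erase l) h (fun u => Y u + L) x ≤ K := by
    intro M hM
    set YM := Function.update Y l (Y l + M) with hYM
    have hmem : Valid T h (fun u => YM u - ε) x := hm.mono hh fun u _ => by
      rcases eq_or_ne u l with rfl | hne <;> simp [*]
    have := (isHyp hh).norm_line_le hε (x := (ofR YM, x)) (by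
      rw [ofR_add_e]; simpa [Valid, sub_eq_add_neg] using hmem) (mem_realPts _ hv.herm)
      (le_max_right R 0)
    rw [ofR_add_e] at this
    simp only [q_ofR hv.herm, Complex.norm_real, Real.norm_eq_abs] at this
    have e0 : qR T h YM x = qR T h Y x := by
      have := hdir M 0
      simpa [hzero, hYM] using this
    rw [hdir M L, e0] at this
    exact (le_abs_self _).trans this
  set a := qR T h (fun u => Y u + L) x
  set b := qR (T.erase l) h (fun u => Y u + L) x
  have hM : 0 ≤ (|K| + |a| + 1) / b := by positivity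
  have := hbound _ hM
  rw [div_mul_cancel₀ _ hp.ne'] at this
  linarith [neg_abs_le a, le_abs_self K]

theorem Valid.subset (hh : IsLaw T h) (hv : Valid T h Z x) (hU : U ⊆ T) : Valid U h Z x := by
  induction hn : T.card - U.card using Nat.strong_induction_on generalizing T with
  | _ n IH =>
    by_cases hTU : T ⊆ U
    · rwa [Finset.Subset.antisymm hU hTU]
    · obtain ⟨a, haT, haU⟩ := Finset.not_subset.1 hTU
      have hU' : U ⊆ T.erase a := Finset.subset_erase.2 ⟨hU, haU⟩
      refine IH _ ?_ (hh.mono (Finset.erase_subset _ _)) (hv.erase hh haT) hU' rfl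
      have := Finset.card_erase_of_mem haT
      have := Finset.card_le_card hU'
      have := Finset.card_pos.2 ⟨a, haT⟩
      omega

theorem m_congr (hh : ∀ u ∈ T, u ≠ l → h u = h' u) (hZ : ∀ u ∈ T, u ≠ l → Z u = Z' u)
    (c : Fin r) : m T l h c Z x = m T l h' c Z' x := by
  have hz : ∀ u ∈ T.erase l, ofR Z u = ofR Z' u := fun u hu => by
    simp [ofR, hZ u (Finset.mem_of_mem_erase hu) (Finset.ne_of_mem_erase hu)]
  simp only [m, qR]
  rw [q_congr (h' := h') (fun u hu => hh u (Finset.mem_of_mem_erase hu)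
    (Finset.ne_of_mem_erase hu)) hz (fun _ _ _ _ => rfl)]
  rw [q_congr (T := T) (h' := pure h' l c) (z' := ofR (Function.update Z' l 0)) ?_ ?_
    (fun _ _ _ _ => rfl)]
  · intro u hu
    rcases eq_or_ne u l with rfl | hne
    · simp [Local.pure]
    · simp [Local.pure, Function.update_of_ne hne, hh u hu hne]
  · intro u hu
    rcases eq_or_ne u l with rfl | hne
    · simp [ofR]
    · simp [ofR, Function.update_of_ne hne, hZ u hu hne]

/-- `q` factors through the mixture of the `m`. -/
theorem qR_eq (hl : l ∈ T) (hh : IsLaw T h) (hne : qR (T.erase l) h Z x ≠ 0) :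
    qR T h Z x = qR (T.erase l) h Z x * (Z l - ∑ c, h l c * m T l h c Z x) := by
  have h0 : qR T h (Function.update Z l 0) x
      = ∑ c, h l c * qR T (pure h l c) (Function.update Z l 0) x := by
    simp only [qR]
    rw [q_linear hl, Complex.re_sum]
    simp
  have := qR_update (Z := Z) (x := x) hl hh (Z l)
  rw [Function.update_eq_self] at this
  rw [this, h0, mul_sub, Finset.mul_sum]
  have : ∀ c, qR (T.erase l) h Z x * (h l c * m T l h c Z x)
      = -(h l c * qR T (pure h l c) (Function.update Z l 0) x) := by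
    intro c; rw [m]; field_simp
  simp only [this, Finset.sum_neg_distrib]
  ring

theorem sum_m_lt (hl : l ∈ T) (hh : IsLaw T h) (hv : Valid T h Z x) :
    ∑ c, h l c * m T l h c Z x < Z l := by
  have h' := (hv.erase hh hl).pos (hh.mono (Finset.erase_subset _ _))
  have := hv.pos hh
  rw [qR_eq hl hh h'.ne'] at this
  linarith [(mul_pos_iff_of_pos_left h').1 this]

/-- The recursive description of validity. -/
theorem valid_iff_erase (hl : l ∈ T) (hh : IsLaw T h) : Valid T h Z x ↔
    Valid (T.erase l) h Z x ∧ ∑ c, h l c * m T l h c Z x < Z l := by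
  refine ⟨fun hv => ⟨hv.erase hh hl, sum_m_lt hl hh hv⟩, ?_⟩
  rintro ⟨hv, hlt⟩
  have hh' : IsLaw (T.erase l) h := hh.mono (Finset.erase_subset _ _)
  obtain ⟨R, hR⟩ := exists_qR_pos hh Z x
  set g : ℝ → ℝ := fun t => -qR T h (fun u => Z u + t) x / qR (T.erase l) h (fun u => Z u + t) x
  have hg : ContinuousOn g (Set.Icc 0 (max R 0)) :=
    (continuous_qR_line hh).neg.continuousOn.div (continuous_qR_line hh').continuousOn
      fun t ht => ((hv.shift hh' ht.1).pos hh').ne'
  obtain ⟨B, hB⟩ := (isCompact_Icc.image_of_continuousOn hg).bddAbove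
  set M := |B| + 1 with hM
  have hupd : ∀ (a t : ℝ), qR T h (fun u => Function.update Z l (Z l + a) u + t) x
      = qR T h (fun u => Z u + t) x + a * qR (T.erase l) h (fun u => Z u + t) x := by
    intro a t
    have e1 : (fun u => Function.update Z l (Z l + a) u + t)
        = Function.update (fun u => Z u + t) l (Z l + t + a) := by
      ext u; rcases eq_or_ne u l with rfl | hne <;> simp [*]; ring
    have e2 := qR_update (Z := fun u => Z u + t) (x := x) hl hh (Z l + t)
    rw [e1, qR_update hl hh, add_mul, ← add_assoc, ← e2, Function.update_eq_self_iff.2 rfl]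
  have hbig : Valid T h (Function.update Z l (Z l + M)) x := by
    refine valid_iff.2 ⟨hv.herm, fun t ht hz => ?_⟩
    have h0 : qR T h (fun u => Function.update Z l (Z l + M) u + t) x = 0 := by
      rw [qR, hz, Complex.zero_re]
    rw [hupd] at h0
    have hpos := (hv.shift hh' ht).pos hh'
    rcases le_or_gt t (max R 0) with htR | htR
    · have hb := hB ⟨t, ⟨ht, htR⟩, rfl⟩
      simp only [g] at hb
      rw [div_le_iff₀ hpos] at hb
      nlinarith [le_abs_self B]
    · have := hR t ((le_max_left R 0).trans htR.le)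
      have : 0 < M := by rw [hM]; positivity
      nlinarith
  set b : ℝ → (ι → ℂ) × (ι → ι → ℂ) :=
    fun s => (ofR (Function.update Z l (Z l + (1 - s) * M)), x) with hb
  have hbc : Continuous b := by unfold b ofR; fun_prop
  have := (isHyp hh).mem_of_path hbc (fun s _ => mem_realPts _ hv.herm) (fun s hs hz => ?_)
    (show b 0 ∈ _ by simpa [hb, Valid] using hbig)
  · simpa [hb, Valid] using this
  · have hz' : qR T h (Function.update Z l (Z l + (1 - s) * M)) x = 0 := by
      simp only [hb] at hz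
      rw [qR, hz, Complex.zero_re]
    have hq := hupd ((1 - s) * M) 0
    simp only [add_zero] at hq
    rw [hq, qR_eq hl hh (hv.pos hh').ne'] at hz'
    have : 0 ≤ (1 - s) * M * qR (T.erase l) h Z x :=
      mul_nonneg (mul_nonneg (by linarith [hs.2]) (by rw [hM]; positivity)) (hv.pos hh').le
    nlinarith [mul_pos (hv.pos hh') (sub_pos.2 hlt)]

/-- Validity for a pure law is the strict epigraph of `m`. -/
theorem valid_pure_iff (hl : l ∈ T) (hh : IsLaw T h) (c : Fin r) :
    Valid T (pure h l c) Z x ↔ Valid (T.erase l) h Z x ∧ m T l h c Z x < Z l := by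
  rw [valid_iff_erase hl (hh.pure l c)]
  refine and_congr (valid_congr (fun u hu => by
    simp [Local.pure, Function.update_of_ne (Finset.ne_of_mem_erase hu)]) fun _ _ => rfl) ?_
  rw [Finset.sum_eq_single c (fun d _ hd => by simp [Local.pure, Pi.single_eq_of_ne hd])
    (by simp), m_congr (h' := h) (Z' := Z) (fun u _ hne => by
      simp [Local.pure, Function.update_of_ne hne]) (fun _ _ _ => rfl)]
  simp [Local.pure]

/-- If every pure law at `l` is valid then so is the mixture. -/
theorem valid_of_pure (hl : l ∈ T) (hh : IsLaw T h)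
    (hp : ∀ c, Valid T (pure h l c) Z x) : Valid T h Z x := by
  rw [valid_iff_erase hl hh]
  have hne : (Finset.univ : Finset (Fin r)).Nonempty := by
    by_contra hcon
    have := (hh l hl).2
    simp [Finset.not_nonempty_iff_eq_empty.1 hcon] at this
  obtain ⟨c₀, -⟩ := hne
  refine ⟨((valid_pure_iff hl hh c₀).1 (hp c₀)).1, ?_⟩
  obtain ⟨d, hd⟩ : ∃ d, 0 < h l d := by
    by_contra hcon
    simp only [not_exists, not_lt] at hcon
    have := Finset.sum_nonpos fun d (_ : d ∈ Finset.univ) => hcon d
    rw [(hh l hl).2] at this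
    linarith
  calc ∑ c, h l c * m T l h c Z x
      < ∑ c, h l c * Z l := by
        refine Finset.sum_lt_sum (fun c _ => mul_le_mul_of_nonneg_left
          ((valid_pure_iff hl hh c).1 (hp c)).2.le ((hh l hl).1 c)) ⟨d, Finset.mem_univ _, ?_⟩
        exact mul_lt_mul_of_pos_left ((valid_pure_iff hl hh d).1 (hp d)).2 hd
    _ = Z l := by rw [← Finset.sum_mul, (hh l hl).2, one_mul]

/-- `m` decreases in `Z`. -/
theorem m_antitone (hl : l ∈ T) (hh : IsLaw T h) (hv : Valid (T.erase l) h Z x)
    (hle : ∀ u ∈ T, u ≠ l → Z u ≤ Z' u) (c : Fin r) : m T l h c Z' x ≤ m T l h c Z x := by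
  refine le_of_forall_gt_imp_ge_of_dense fun w hw => ?_
  have hv' : Valid (T.erase l) h (Function.update Z l w) x :=
    (valid_congr (fun _ _ => rfl) fun u hu => by
      simp [Function.update_of_ne (Finset.ne_of_mem_erase hu)]).1 hv
  have hlt : m T l h c (Function.update Z l w) x < Function.update Z l w l := by
    rw [m_congr (h' := h) (Z' := Z) (fun _ _ _ => rfl)
      (fun u _ hne => by simp [Function.update_of_ne hne])]
    simpa using hw
  have := ((valid_pure_iff hl hh c).2 ⟨hv', hlt⟩).mono (hh.pure l c)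
    (Z' := Function.update Z' l w) fun u hu => by
      rcases eq_or_ne u l with rfl | hne <;> simp [*]
  have := ((valid_pure_iff hl hh c).1 this).2
  rw [m_congr (h' := h) (Z' := Z') (fun _ _ _ => rfl)
    (fun u _ hne => by simp [Function.update_of_ne hne]), Function.update_self] at this
  exact this.le

/-- `m` is subadditive jointly in `(Z, x)`. -/
theorem m_add_le (hl : l ∈ T) (hh : IsLaw T h) (h1 : Valid (T.erase l) h Z x)
    (h2 : Valid (T.erase l) h Z' x') (c : Fin r) :
    m T l h c (Z + Z') (x + x') ≤ m T l h c Z x + m T l h c Z' x' := by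
  refine le_of_forall_gt_imp_ge_of_dense fun w hw => ?_
  set d := (w - (m T l h c Z x + m T l h c Z' x')) / 2
  have key : ∀ (W : ι → ℝ) (y : ι → ι → ℂ), Valid (T.erase l) h W y →
      Valid T (pure h l c) (Function.update W l (m T l h c W y + d)) y := by
    intro W y hW
    refine (valid_pure_iff hl hh c).2 ⟨(valid_congr (fun _ _ => rfl) fun u hu => by
      simp [Function.update_of_ne (Finset.ne_of_mem_erase hu)]).1 hW, ?_⟩
    rw [m_congr (h' := h) (Z' := W) (fun _ _ _ => rfl)
      (fun u _ hne => by simp [Function.update_of_ne hne]), Function.update_self]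
    have : 0 < d := by simp only [d]; linarith
    linarith
  have := ((valid_pure_iff hl hh c).1 ((key Z x h1).add (hh.pure l c) (key Z' x' h2))).2
  rw [m_congr (h' := h) (Z' := Z + Z') (fun _ _ _ => rfl)
    (fun u _ hne => by simp [Function.update_of_ne hne])] at this
  simp only [Pi.add_apply, Function.update_self, d] at this
  linarith

/-- `m` is homogeneous. -/
theorem m_smul (hh : IsLaw T h) (hl : l ∈ T) {a : ℝ} (ha : 0 < a) (c : Fin r) :
    m T l h c (fun u => a * Z u) ((a : ℂ) • x) = a * m T l h c Z x := by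
  have key : ∀ (U : Finset ι) (g : ι → Fin r → ℝ) (W : ι → ℝ), IsLaw U g →
      qR U g (fun u => a * W u) ((a : ℂ) • x) = a ^ U.card * qR U g W x := by
    intro U g W hg
    have := (isHyp hg).hom (a : ℂ) (ofR W, x)
    have e : ofR (fun u => a * W u) = (a : ℂ) • ofR W := by ext u; simp [ofR]
    rw [qR, qR, e, show q U g ((a : ℂ) • ofR W) ((a : ℂ) • x) = _ from this,
      ← Complex.ofReal_pow, Complex.re_ofReal_mul]
  have e : Function.update (fun u => a * Z u) l 0 = fun u => a * Function.update Z l 0 u := by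
    ext u; rcases eq_or_ne u l with rfl | hne <;> simp [*]
  simp only [m]
  rw [e, key _ _ _ (hh.pure l c), key _ _ _ (hh.mono (Finset.erase_subset _ _))]
  have hn : T.card = (T.erase l).card + 1 := (Finset.card_erase_add_one hl).symm
  rw [hn, pow_succ]
  have : a ^ (T.erase l).card ≠ 0 := pow_ne_zero _ ha.ne'
  field_simp

/-- `m` is convex in `Z` along segments. -/
theorem m_convex (hl : l ∈ T) (hh : IsLaw T h) (h1 : Valid (T.erase l) h Z x)
    (h2 : Valid (T.erase l) h Z' x) {s : ℝ} (hs0 : 0 < s) (hs1 : s < 1) (c : Fin r) :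
    m T l h c (fun u => s * Z u + (1 - s) * Z' u) x
      ≤ s * m T l h c Z x + (1 - s) * m T l h c Z' x := by
  have hh' : IsLaw (T.erase l) h := hh.mono (Finset.erase_subset _ _)
  have := m_add_le hl hh (h1.smul hh' hs0) (h2.smul hh' (sub_pos.2 hs1)) c
  rw [m_smul hh hl hs0, m_smul hh hl (sub_pos.2 hs1)] at this
  have hx : (s : ℂ) • x + ((1 - s : ℝ) : ℂ) • x = x := by
    rw [← add_smul]; simp
  rw [hx] at this
  exact this

/-- With zero diagonal the Schur complements are nonnegative. -/
theorem m_nonneg (hl : l ∈ T) (hh : IsLaw T h) (hv : Valid (T.erase l) h Z x) (hd : x l l = 0)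
    (c : Fin r) : 0 ≤ m T l h c Z x := by
  by_contra hcon
  set w' := m T l h c Z x / 2
  have hw' : m T l h c Z x < 0 := not_le.1 hcon
  have hval : Valid T (pure h l c) (Function.update Z l w') x := by
    refine (valid_pure_iff hl hh c).2 ⟨(valid_congr (fun _ _ => rfl) fun u hu => by
      simp [Function.update_of_ne (Finset.ne_of_mem_erase hu)]).1 hv, ?_⟩
    rw [m_congr (h' := h) (Z' := Z) (fun _ _ _ => rfl)
      (fun u _ hne => by simp [Function.update_of_ne hne]), Function.update_self]
    simp only [w']; linarith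
  have hsing := (hval.subset (hh.pure l c) (Finset.singleton_subset_iff.2 hl)).pos
    ((hh.pure l c).mono (Finset.singleton_subset_iff.2 hl))
  have hq := qR_update (T := {l}) (Z := Z) (x := x) (Finset.mem_singleton_self l)
    ((hh.pure l c).mono (Finset.singleton_subset_iff.2 hl)) w'
  have h0 : qR {l} (pure h l c) (Function.update Z l 0) x = 0 := by
    simp only [qR, q]
    rw [Finset.sum_eq_zero]
    · simp
    · intro d _
      have : (colMatrix {l} d (ofR (Function.update Z l 0)) x).det = 0 := by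
        refine Matrix.det_eq_zero_of_row_eq_zero ⟨l, Finset.mem_singleton_self l⟩ fun b => ?_
        have hb : (b : ι) = l := Finset.mem_singleton.1 b.2
        simp [colMatrix, ofR, hb, hd, Subtype.ext_iff]
      rw [this, mul_zero]
  rw [h0, zero_add, Finset.erase_singleton] at hq
  rw [hq] at hsing
  simp only [qR, q_empty, Complex.one_re, mul_one, w'] at hsing
  linarith

end Vale.Agent.P078.Local
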