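import Mathlib

/-!
# Hyperbolic forms and their cones, after Gårding

`p` is a form of degree `n` on a complex vector space `V` with a real subspace `Re`, `e` is a real
point, and `p (x + t • e) ≠ 0` for real `x` and nonreal `t`. The cone `IsHyp.cone` of real points
`x` with `p (x + t • e) ≠ 0` for all `t ≥ 0` is open in `Re`, is closed under positive scaling and
sums, and `p (x + t • a) ≠ 0` for each of its points `a` and all nonreal `t`.
-/

namespace Vale.Agent.P078.Local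

open Polynomial
open scoped Topology

/-- A polynomial of degree `n` with all roots at distance at least `ρ` from `t₀` is not small at
`t₀`. -/
theorem le_norm_eval_of_roots_far {P : ℂ[X]} {n : ℕ} (hn : P.natDegree ≤ n) (hc : P.coeff n ≠ 0)
    {t₀ : ℂ} {ρ : ℝ} (hρ : 0 ≤ ρ) (hfar : ∀ r : ℂ, P.eval r = 0 → ρ ≤ ‖t₀ - r‖) :
    ‖P.coeff n‖ * ρ ^ n ≤ ‖P.eval t₀‖ := by
  have hdeg : P.natDegree = n := le_antisymm hn (le_natDegree_of_ne_zero hc)
  have hP : P ≠ 0 := fun h => hc (by simp [h])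
  have hs : Splits P := IsAlgClosed.splits P
  have hcard : P.roots.card = n := by rw [← hdeg]; exact hs.natDegree_eq_card_roots.symm
  rw [hs.eval_eq_prod_roots, norm_mul, ← hdeg, Polynomial.coeff_natDegree]
  refine mul_le_mul_of_nonneg_left ?_ (norm_nonneg _)
  rw [hdeg, ← hcard]
  have key : ∀ m : Multiset ℂ, (∀ r ∈ m, ρ ≤ ‖t₀ - r‖) →
      ρ ^ m.card ≤ ‖(m.map fun r => t₀ - r).prod‖ := by
    intro m
    induction m using Multiset.induction with
    | empty => simp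
    | cons r m ih =>
      intro hm
      rw [Multiset.card_cons, pow_succ', Multiset.map_cons, Multiset.prod_cons, norm_mul]
      exact mul_le_mul (hm r (Multiset.mem_cons_self r m))
        (ih fun x hx => hm x (Multiset.mem_cons_of_mem hx)) (pow_nonneg hρ _) (norm_nonneg _)
  exact key _ fun r hr => hfar r (mem_roots'.1 hr).2

variable {V : Type*} [AddCommGroup V] [Module ℂ V] [TopologicalSpace V]

/-- `p` is a form of degree `n`, hyperbolic in direction `e` with respect to the real points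
`Re`. -/
structure IsHyp (p : V → ℂ) (n : ℕ) (Re : Submodule ℝ V) (e : V) : Prop where
  cont : Continuous p
  line : ∀ a b : V, ∃ P : ℂ[X], P.natDegree ≤ n ∧ P.coeff n = p a ∧
    ∀ t : ℂ, P.eval t = p (b + t • a)
  hom : ∀ (c : ℂ) (v : V), p (c • v) = c ^ n * p v
  e_mem : e ∈ Re
  e_ne : p e ≠ 0
  nz : ∀ x ∈ Re, ∀ t : ℂ, t.im ≠ 0 → p (x + t • e) ≠ 0

namespace IsHyp

variable [IsTopologicalAddGroup V] [ContinuousSMul ℂ V]
variable {p : V → ℂ} {n : ℕ} {Re : Submodule ℝ V} {e : V}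

omit [TopologicalSpace V] [IsTopologicalAddGroup V] [ContinuousSMul ℂ V] in
theorem real_smul_mem (c : ℝ) {x : V} (hx : x ∈ Re) : (c : ℂ) • x ∈ Re := by
  rw [show ((c : ℂ) • x) = c • x from (Complex.coe_smul c x)]
  exact Re.smul_mem c hx

/-- For a continuous path `b` and a fixed leading direction, the zeros are bounded uniformly. -/
theorem zeros_bounded (h : IsHyp p n Re e) {b : ℝ → V} (hb : Continuous b) {a : V}
    (ha : p a ≠ 0) : ∃ R : ℝ, ∀ s ∈ Set.Icc (0 : ℝ) 1, ∀ t : ℂ,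
      p (b s + t • a) = 0 → ‖t‖ ≤ R := by
  have hF : Continuous fun q : ℝ × ℂ => p (a + q.2 • b q.1) := h.cont.comp (by fun_prop)
  have hU : IsOpen {q : ℝ × ℂ | p (a + q.2 • b q.1) ≠ 0} := isOpen_compl_singleton.preimage hF
  have hsub : Set.Icc (0 : ℝ) 1 ×ˢ ({0} : Set ℂ) ⊆ {q : ℝ × ℂ | p (a + q.2 • b q.1) ≠ 0} := by
    rintro ⟨s, u⟩ ⟨-, rfl⟩
    simpa using ha
  obtain ⟨u, v, -, hv, hIu, h0v, huv⟩ :=
    generalized_tube_lemma isCompact_Icc isCompact_singleton hU hsub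
  obtain ⟨δ, hδ, hball⟩ := Metric.isOpen_iff.1 hv 0 (h0v rfl)
  refine ⟨1 / δ, fun s hs t ht => ?_⟩
  by_contra hlt
  rw [not_le] at hlt
  have ht0 : t ≠ 0 := by
    rintro rfl
    have : (0 : ℝ) < 1 / δ := by positivity
    simp at hlt
    linarith
  have hmem : t⁻¹ ∈ v := hball (by
    rw [Metric.mem_ball, dist_zero_right, norm_inv]
    rw [inv_lt_comm₀ (norm_pos_iff.2 ht0) hδ, ← one_div]
    exact hlt)
  apply huv (Set.mk_mem_prod (hIu hs) hmem)
  have : b s + t • a = t • (a + t⁻¹ • b s) := by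
    rw [smul_add, smul_inv_smul₀ ht0, add_comm]
  rw [this, h.hom] at ht
  exact (mul_eq_zero.1 ht).resolve_left (pow_ne_zero _ ht0)

/-- The homotopy lemma: along a path, zeros in `U` cannot appear if zeros close to a zero in `U`
are in `U` and `U` is closed. -/
theorem homotopy (h : IsHyp p n Re e) {b : ℝ → V} (hb : Continuous b) {a : V} (ha : p a ≠ 0)
    {U : Set ℂ} (hU : IsClosed U)
    (hloc : ∀ s ∈ Set.Icc (0 : ℝ) 1, ∀ t ∈ U, p (b s + t • a) = 0 → ∃ ρ > (0 : ℝ),
      ∀ s' ∈ Set.Icc (0 : ℝ) 1, ∀ r : ℂ, p (b s' + r • a) = 0 → ‖t - r‖ < ρ → r ∈ U)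
    (h0 : ∀ t ∈ U, p (b 0 + t • a) ≠ 0) : ∀ t ∈ U, p (b 1 + t • a) ≠ 0 := by
  obtain ⟨R, hR⟩ := h.zeros_bounded hb ha
  let G : Set (Set.Icc (0 : ℝ) 1) := {s | ∀ t ∈ U, p (b s.1 + t • a) ≠ 0}
  have hopen : IsOpen G := by
    have hK : IsCompact (Metric.closedBall (0 : ℂ) R ∩ U) :=
      (isCompact_closedBall _ _).inter_right hU
    have : CompactSpace (Metric.closedBall (0 : ℂ) R ∩ U : Set ℂ) :=
      isCompact_iff_compactSpace.1 hK
    have hZ : IsClosed {q : (Set.Icc (0 : ℝ) 1) × (Metric.closedBall (0 : ℂ) R ∩ U : Set ℂ) |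
        p (b q.1.1 + (q.2 : ℂ) • a) = 0} :=
      isClosed_eq (h.cont.comp (by fun_prop)) continuous_const
    have hcl := isClosedMap_fst_of_compactSpace _ hZ
    convert hcl.isOpen_compl using 1
    ext s
    simp only [G, Set.mem_ofPred_eq, Set.mem_compl_iff, Set.mem_image, not_exists, not_and]
    constructor
    · rintro hs ⟨s', t⟩ hz rfl
      exact hs t.1 t.2.2 hz
    · intro hs t htU hz
      exact hs (s, ⟨t, by simpa using hR s.1 s.2 t hz, htU⟩) hz rfl
  have hclosed : IsClosed G := by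
    refine isClosed_of_closure_subset fun s hs t htU hz => ?_
    obtain ⟨ρ, hρ, hρ'⟩ := hloc s.1 s.2 t htU hz
    have hG : ∀ s' ∈ G, ‖p a‖ * ρ ^ n ≤ ‖p (b s'.1 + t • a)‖ := by
      intro s' hs'
      obtain ⟨P, hP1, hP2, hP3⟩ := h.line a (b s'.1)
      rw [← hP2, ← hP3 t]
      refine le_norm_eval_of_roots_far hP1 (hP2 ▸ ha) hρ.le fun r hr => ?_
      by_contra hlt
      rw [hP3] at hr
      exact hs' r (hρ' _ s'.2 r hr (not_le.1 hlt)) hr
    have hc : Continuous fun s' : Set.Icc (0 : ℝ) 1 => ‖p (b s'.1 + t • a)‖ :=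
      (h.cont.comp (by fun_prop)).norm
    have hle : ‖p a‖ * ρ ^ n ≤ ‖p (b s.1 + t • a)‖ :=
      closure_minimal hG (isClosed_le continuous_const hc) hs
    rw [hz, norm_zero] at hle
    have : 0 < ‖p a‖ * ρ ^ n := mul_pos (norm_pos_iff.2 ha) (pow_pos hρ n)
    linarith
  have huniv : G = Set.univ :=
    IsClopen.eq_univ ⟨hclosed, hopen⟩ ⟨⟨0, by simp⟩, h0⟩
  intro t ht
  have h1 : (⟨1, by simp⟩ : Set.Icc (0 : ℝ) 1) ∈ G := huniv ▸ Set.mem_univ _
  exact h1 t ht

/-- The hyperbolicity cone of `p`. -/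
def cone (p : V → ℂ) (Re : Submodule ℝ V) (e : V) : Set V :=
  {x | x ∈ Re ∧ ∀ t : ℝ, 0 ≤ t → p (x + (t : ℂ) • e) ≠ 0}

omit [TopologicalSpace V] [IsTopologicalAddGroup V] [ContinuousSMul ℂ V] in
theorem ne_zero_of_mem {x : V} (hx : x ∈ cone p Re e) : p x ≠ 0 := by
  simpa using hx.2 0 le_rfl

omit [IsTopologicalAddGroup V] [ContinuousSMul ℂ V] in
theorem mem_cone_self (h : IsHyp p n Re e) : e ∈ cone p Re e := by
  refine ⟨h.e_mem, fun t ht => ?_⟩
  have : e + (t : ℂ) • e = ((1 + t : ℝ) : ℂ) • e := by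
    rw [Complex.ofReal_add, add_smul, Complex.ofReal_one, one_smul]
  rw [this, h.hom]
  exact mul_ne_zero (pow_ne_zero _ (by exact_mod_cast (by linarith : (1 + t) ≠ 0))) h.e_ne

omit [IsTopologicalAddGroup V] [ContinuousSMul ℂ V] in
theorem smul_mem (h : IsHyp p n Re e) {c : ℝ} (hc : 0 < c) {x : V} (hx : x ∈ cone p Re e) :
    (c : ℂ) • x ∈ cone p Re e := by
  refine ⟨real_smul_mem c hx.1, fun t ht => ?_⟩
  have hcne : (c : ℂ) ≠ 0 := by exact_mod_cast hc.ne'
  have : (c : ℂ) • x + (t : ℂ) • e = (c : ℂ) • (x + ((t / c : ℝ) : ℂ) • e) := by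
    rw [smul_add, smul_smul]; push_cast; rw [mul_div_cancel₀ _ hcne]
  rw [this, h.hom]
  exact mul_ne_zero (pow_ne_zero _ hcne) (hx.2 _ (div_nonneg ht hc.le))

omit [TopologicalSpace V] [IsTopologicalAddGroup V] [ContinuousSMul ℂ V] in
theorem add_smul_e_mem {x : V} (hx : x ∈ cone p Re e) (he : e ∈ Re) {σ : ℝ} (hσ : 0 ≤ σ) :
    x + (σ : ℂ) • e ∈ cone p Re e := by
  refine ⟨Re.add_mem hx.1 (real_smul_mem σ he), fun t ht => ?_⟩
  rw [add_assoc, ← add_smul, ← Complex.ofReal_add]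
  exact hx.2 _ (add_nonneg hσ ht)

/-- Above the real axis a point of the cone is as good a direction as `e`. -/
theorem nz_shift (h : IsHyp p n Re e) {a x : V} (ha : a ∈ cone p Re e) (hx : x ∈ Re) {ε : ℝ}
    (hε : 0 < ε) {t : ℂ} (ht : 0 ≤ t.im) :
    p (x + (Complex.I * ε) • e + t • a) ≠ 0 := by
  have hpa := ne_zero_of_mem ha
  have hax : ∀ (s : ℝ) (r : ℂ), r.im = 0 →
      p ((s : ℂ) • x + (Complex.I * ε) • e + r • a) ≠ 0 := by
    intro s r hr
    have hre : r = (r.re : ℂ) := Complex.ext rfl (by simp [hr])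
    rw [hre, add_right_comm]
    exact h.nz _ (Re.add_mem (real_smul_mem s hx) (real_smul_mem _ ha.1)) _ (by simp [hε.ne'])
  have := h.homotopy (b := fun s : ℝ => (s : ℂ) • x + (Complex.I * ε) • e) (by fun_prop) hpa
    (U := {t : ℂ | 0 ≤ t.im}) (isClosed_le continuous_const Complex.continuous_im)
    (fun s _ t ht hz => ⟨t.im, ?_, fun s' _ r _ hr => ?_⟩) ?_ t ht
  · simpa using this
  · rcases (show 0 ≤ t.im from ht).lt_or_eq with hlt | heq
    · exact hlt
    · exact absurd hz (hax s t heq.symm)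
  · have h1 : t.im - r.im ≤ ‖t - r‖ := by
      simpa using (le_abs_self (t - r).im).trans (Complex.abs_im_le_norm (t - r))
    show 0 ≤ r.im
    linarith
  · intro r hr hz
    rcases eq_or_ne r.im 0 with hr0 | hr0
    · exact hax 0 r hr0 (by simpa using hz)
    · have hrne : r ≠ 0 := fun hh => hr0 (by simp [hh])
      have : ((0 : ℝ) : ℂ) • x + (Complex.I * ε) • e + r • a
          = r • (a + (Complex.I * ε / r) • e) := by
        rw [smul_add, smul_smul, mul_div_cancel₀ _ hrne]; simp [add_comm]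
      rw [this, h.hom] at hz
      have hz' := (mul_eq_zero.1 hz).resolve_left (pow_ne_zero _ hrne)
      rcases eq_or_ne (Complex.I * ε / r).im 0 with hi | hi
      · have hre : Complex.I * ε / r = ((Complex.I * ε / r).re : ℂ) :=
          Complex.ext rfl (by simp [hi])
        rw [hre] at hz'
        refine ha.2 _ ?_ hz'
        have : (Complex.I * ε / r).re = ε * r.im / Complex.normSq r := by
          simp [Complex.div_re]
        rw [this]
        exact div_nonneg (mul_nonneg hε.le hr) (Complex.normSq_nonneg _)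
      · exact h.nz a ha.1 _ hi hz'

/-- Every point of the cone is a direction of hyperbolicity. -/
theorem nz_dir (h : IsHyp p n Re e) {a x : V} (ha : a ∈ cone p Re e) (hx : x ∈ Re) {t : ℂ}
    (ht : t.im ≠ 0) : p (x + t • a) ≠ 0 := by
  suffices hpos : ∀ y ∈ Re, ∀ r : ℂ, 0 < r.im → p (y + r • a) ≠ 0 by
    rcases ht.lt_or_gt with hneg | hgt
    · have h1 := hpos (-x) (Re.neg_mem hx) (-t) (by simpa using hneg)
      intro hz
      apply h1
      have : -x + -t • a = (-1 : ℂ) • (x + t • a) := by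
        rw [neg_one_smul, neg_add, neg_smul]
      rw [this, h.hom, hz, mul_zero]
    · exact hpos x hx t hgt
  intro y hy r hr hz
  have hg : Continuous fun ε : ℝ => ‖p (y + (Complex.I * ε) • e + r • a)‖ :=
    (h.cont.comp (by fun_prop)).norm
  have hle : ∀ ε : ℝ, 0 < ε →
      ‖p a‖ * r.im ^ n ≤ ‖p (y + (Complex.I * ε) • e + r • a)‖ := by
    intro ε hε
    obtain ⟨P, hP1, hP2, hP3⟩ := h.line a (y + (Complex.I * ε) • e)
    rw [← hP2, ← hP3 r]
    refine le_norm_eval_of_roots_far hP1 (hP2 ▸ ne_zero_of_mem ha) hr.le fun z hz' => ?_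
    rw [hP3] at hz'
    have him : z.im < 0 := by
      by_contra hc
      exact h.nz_shift ha hy hε (not_lt.1 hc) hz'
    have h1 : r.im - z.im ≤ ‖r - z‖ := by
      simpa using (le_abs_self (r - z).im).trans (Complex.abs_im_le_norm (r - z))
    linarith
  have h0 : ‖p a‖ * r.im ^ n ≤ ‖p (y + (Complex.I * ((0 : ℝ) : ℂ)) • e + r • a)‖ :=
    ge_of_tendsto (hg.continuousWithinAt (s := Set.Ioi 0) (x := 0))
      (Filter.eventually_of_mem self_mem_nhdsWithin fun ε hε => hle ε hε)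
  simp [hz] at h0
  have : 0 < ‖p a‖ * r.im ^ n := mul_pos (norm_pos_iff.2 (ne_zero_of_mem ha)) (pow_pos hr n)
  linarith

/-- The cone is closed under sums. -/
theorem add_mem (h : IsHyp p n Re e) {a b : V} (ha : a ∈ cone p Re e) (hb : b ∈ cone p Re e) :
    b + a ∈ cone p Re e := by
  refine ⟨Re.add_mem hb.1 ha.1, fun τ hτ => ?_⟩
  have hb' := add_smul_e_mem hb h.e_mem hτ
  set c := b + (τ : ℂ) • e
  set path : ℝ → V := fun s => ((1 - s : ℝ) : ℂ) • e + (s : ℂ) • c
  have hpath : ∀ s ∈ Set.Icc (0 : ℝ) 1, p (path s) ≠ 0 ∧ path s ∈ Re := by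
    intro s hs
    refine ⟨?_, Re.add_mem (real_smul_mem _ h.e_mem) (real_smul_mem _ hb'.1)⟩
    rcases hs.1.lt_or_eq with hs0 | hs0
    · have hsne : (s : ℂ) ≠ 0 := by exact_mod_cast hs0.ne'
      have : path s = (s : ℂ) • (c + (((1 - s) / s : ℝ) : ℂ) • e) := by
        simp only [path]
        rw [smul_add (s : ℂ) c, smul_smul]; push_cast; rw [mul_div_cancel₀ _ hsne, add_comm]
      rw [this, h.hom]
      exact mul_ne_zero (pow_ne_zero _ hsne) (hb'.2 _ (div_nonneg (by linarith [hs.2]) hs0.le))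
    · subst hs0
      simpa [path] using h.e_ne
  have key := h.homotopy (b := path) (by fun_prop) (ne_zero_of_mem ha)
    (U := (fun x : ℝ => (x : ℂ)) '' Set.Ici 0)
    (Complex.isometry_ofReal.isClosedEmbedding.isClosedMap _ isClosed_Ici) ?_ ?_ 1 ⟨1, by simp⟩
  · have hh : path 1 + (1 : ℂ) • a = b + a + (τ : ℂ) • e := by simp [path, c]; abel
    rwa [hh] at key
  · rintro s hs _ ⟨x, hx, rfl⟩ hz
    have hx0 : 0 < x := by
      rcases (Set.mem_Ici.1 hx).lt_or_eq with hlt | heq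
      · exact hlt
      · subst heq; simp [(hpath s hs).1] at hz
    refine ⟨x, hx0, fun s' hs' r hr hlt => ?_⟩
    have hri : r.im = 0 := by
      by_contra hne
      exact h.nz_dir ha (hpath s' hs').2 hne hr
    refine ⟨r.re, ?_, Complex.ext rfl (by simp [hri])⟩
    have h1 : x - r.re ≤ ‖(x : ℂ) - r‖ := by
      simpa using (le_abs_self ((x : ℂ) - r).re).trans (Complex.abs_re_le_norm ((x : ℂ) - r))
    show 0 ≤ r.re
    linarith
  · rintro _ ⟨x, hx, rfl⟩ hz
    rcases (Set.mem_Ici.1 hx).lt_or_eq with hlt | heq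
    · have hxne : (x : ℂ) ≠ 0 := by exact_mod_cast hlt.ne'
      have : path 0 + (x : ℂ) • a = (x : ℂ) • (a + ((x⁻¹ : ℝ) : ℂ) • e) := by
        simp [path, smul_add, smul_smul, hxne, add_comm]
      rw [this, h.hom] at hz
      exact ha.2 _ (inv_nonneg.2 hlt.le) ((mul_eq_zero.1 hz).resolve_left (pow_ne_zero _ hxne))
    · subst heq; simp [path, h.e_ne] at hz

/-- A path of real points without zeros of `p` that starts in the cone stays in the cone. -/
theorem mem_of_path (h : IsHyp p n Re e) {b : ℝ → V} (hb : Continuous b)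
    (hre : ∀ s ∈ Set.Icc (0 : ℝ) 1, b s ∈ Re) (hne : ∀ s ∈ Set.Icc (0 : ℝ) 1, p (b s) ≠ 0)
    (h0 : b 0 ∈ cone p Re e) : b 1 ∈ cone p Re e := by
  refine ⟨hre 1 (by simp), fun t ht => ?_⟩
  refine h.homotopy hb h.e_ne (U := (fun x : ℝ => (x : ℂ)) '' Set.Ici 0)
    (Complex.isometry_ofReal.isClosedEmbedding.isClosedMap _ isClosed_Ici) ?_ ?_ _ ⟨t, ht, rfl⟩
  · rintro s hs _ ⟨x, hx, rfl⟩ hz
    have hx0 : 0 < x := by
      rcases (Set.mem_Ici.1 hx).lt_or_eq with hlt | heq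
      · exact hlt
      · subst heq; simp [hne s hs] at hz
    refine ⟨x, hx0, fun s' hs' r hr hlt => ?_⟩
    have hri : r.im = 0 := by
      by_contra hne'
      exact h.nz _ (hre s' hs') _ hne' hr
    refine ⟨r.re, ?_, Complex.ext rfl (by simp [hri])⟩
    have h1 : x - r.re ≤ ‖(x : ℂ) - r‖ := by
      simpa using (le_abs_self ((x : ℂ) - r).re).trans (Complex.abs_re_le_norm ((x : ℂ) - r))
    show 0 ≤ r.re
    linarith
  · rintro _ ⟨x, hx, rfl⟩
    exact h0.2 x hx

omit [IsTopologicalAddGroup V] [ContinuousSMul ℂ V] in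
/-- If all zeros on the line through `x` lie left of `-ε`, the growth along the line is bounded. -/
theorem norm_line_le (h : IsHyp p n Re e) {ε : ℝ} (hε : 0 < ε) {x : V}
    (hx : x + ((-ε : ℝ) : ℂ) • e ∈ cone p Re e) (hxR : x ∈ Re) {L : ℝ} (hL : 0 ≤ L) :
    ‖p (x + (L : ℂ) • e)‖ ≤ (1 + L / ε) ^ n * ‖p x‖ := by
  obtain ⟨P, hP1, hP2, hP3⟩ := h.line e x
  have hc : P.coeff n ≠ 0 := hP2 ▸ h.e_ne
  have hdeg : P.natDegree = n := le_antisymm hP1 (le_natDegree_of_ne_zero hc)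
  have hP : P ≠ 0 := fun hh => hc (by simp [hh])
  have hs : Splits P := IsAlgClosed.splits P
  have hcard : P.roots.card = n := by rw [← hdeg]; exact hs.natDegree_eq_card_roots.symm
  have hroot : ∀ r ∈ P.roots, r.im = 0 ∧ r.re < -ε := by
    intro r hr
    have hz : p (x + r • e) = 0 := by rw [← hP3]; exact (mem_roots'.1 hr).2
    have hri : r.im = 0 := by
      by_contra hne
      exact h.nz x hxR r hne hz
    refine ⟨hri, ?_⟩
    by_contra hge
    apply hx.2 (r.re + ε) (by linarith [not_lt.1 hge])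
    have : ((-ε : ℝ) : ℂ) + ((r.re + ε : ℝ) : ℂ) = r := Complex.ext (by simp) (by simp [hri])
    rwa [add_assoc, ← add_smul, this]
  have key : ∀ m : Multiset ℂ, (∀ r ∈ m, r.im = 0 ∧ r.re < -ε) →
      ‖(m.map fun r => (L : ℂ) - r).prod‖
        ≤ (1 + L / ε) ^ m.card * ‖(m.map fun r => (0 : ℂ) - r).prod‖ := by
    intro m
    induction m using Multiset.induction with
    | empty => simp
    | cons r m ih =>
      intro hm
      obtain ⟨hri, hrr⟩ := hm r (Multiset.mem_cons_self r m)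
      rw [Multiset.card_cons, pow_succ', Multiset.map_cons, Multiset.map_cons, Multiset.prod_cons,
        Multiset.prod_cons, norm_mul, norm_mul, mul_mul_mul_comm]
      refine mul_le_mul ?_ (ih fun y hy => hm y (Multiset.mem_cons_of_mem hy)) (norm_nonneg _)
        (by positivity)
      have hr' : r = (r.re : ℂ) := Complex.ext rfl (by simp [hri])
      rw [hr', zero_sub, norm_neg, ← Complex.ofReal_sub, Complex.norm_real, Complex.norm_real,
        Real.norm_eq_abs, Real.norm_eq_abs, abs_of_pos (by linarith), abs_of_neg (by linarith)]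
      have : L / ε * ε ≤ L / ε * (-r.re) :=
        mul_le_mul_of_nonneg_left (by linarith) (div_nonneg hL hε.le)
      rw [div_mul_cancel₀ _ hε.ne'] at this
      nlinarith
  have hx0 : p x = P.eval 0 := by rw [hP3]; simp
  rw [← hP3, hx0, hs.eval_eq_prod_roots, hs.eval_eq_prod_roots, norm_mul, norm_mul,
    mul_left_comm ((1 + L / ε) ^ n), ← hcard]
  exact mul_le_mul_of_nonneg_left (key _ hroot) (norm_nonneg _)

/-- The cone is open among the real points. -/
theorem exists_open (h : IsHyp p n Re e) {x : V} (hx : x ∈ cone p Re e) :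
    ∃ W : Set V, IsOpen W ∧ x ∈ W ∧ ∀ y ∈ W, y ∈ Re → y ∈ cone p Re e := by
  have hO : IsOpen {q : V × ℝ | p (((1 - q.2 : ℝ) : ℂ) • q.1 + (q.2 : ℂ) • e) ≠ 0} :=
    isOpen_compl_singleton.preimage (h.cont.comp (by fun_prop))
  have hsub : ({x} : Set V) ×ˢ Set.Icc (0 : ℝ) 1 ⊆
      {q : V × ℝ | p (((1 - q.2 : ℝ) : ℂ) • q.1 + (q.2 : ℂ) • e) ≠ 0} := by
    rintro ⟨y, s⟩ ⟨hy, hs⟩
    rw [Set.mem_singleton_iff] at hy
    subst hy
    rcases hs.2.lt_or_eq with hlt | heq
    · have hne : ((1 - s : ℝ) : ℂ) ≠ 0 := by exact_mod_cast (by linarith : (1 - s) ≠ 0)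
      show p (((1 - s : ℝ) : ℂ) • y + (s : ℂ) • e) ≠ 0
      have : ((1 - s : ℝ) : ℂ) • y + (s : ℂ) • e
          = ((1 - s : ℝ) : ℂ) • (y + ((s / (1 - s) : ℝ) : ℂ) • e) := by
        rw [smul_add, smul_smul, ← Complex.ofReal_mul,
          mul_div_cancel₀ _ (by linarith : (1 - s) ≠ 0)]
      rw [this, h.hom]
      exact mul_ne_zero (pow_ne_zero _ hne) (hx.2 _ (div_nonneg hs.1 (by linarith)))
    · change s = 1 at heq
      subst heq
      simpa using h.e_ne
  obtain ⟨W, T, hW, -, hxW, hT, hWT⟩ :=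
    generalized_tube_lemma isCompact_singleton isCompact_Icc hO hsub
  refine ⟨W, hW, hxW rfl, fun y hy hyR => ⟨hyR, fun t ht hz => ?_⟩⟩
  have ht1 : (0 : ℝ) < 1 + t := by linarith
  have hmem : t / (1 + t) ∈ Set.Icc (0 : ℝ) 1 :=
    ⟨div_nonneg ht ht1.le, (div_le_one ht1).2 (by linarith)⟩
  apply hWT (Set.mk_mem_prod hy (hT hmem))
  have h1 : (1 - t / (1 + t)) = 1 / (1 + t) := by field_simp; ring
  show p (((1 - t / (1 + t) : ℝ) : ℂ) • y + ((t / (1 + t) : ℝ) : ℂ) • e) = 0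
  have : ((1 - t / (1 + t) : ℝ) : ℂ) • y + ((t / (1 + t) : ℝ) : ℂ) • e
      = ((1 / (1 + t) : ℝ) : ℂ) • (y + (t : ℂ) • e) := by
    rw [h1, smul_add, smul_smul, ← Complex.ofReal_mul]
    congr 3
    field_simp
  rw [this, h.hom, hz, mul_zero]

/-- Adding a limit of points of the cone keeps a point in the cone. -/
theorem add_mem_of_closed (h : IsHyp p n Re e) {x v : V} (hx : x ∈ cone p Re e)
    (hv' : ∀ ε : ℝ, 0 < ε → v + (ε : ℂ) • e ∈ cone p Re e) : x + v ∈ cone p Re e := by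
  obtain ⟨W, hW, hxW, hWc⟩ := h.exists_open hx
  have hc : Continuous fun ε : ℝ => x + ((-ε : ℝ) : ℂ) • e := by fun_prop
  obtain ⟨δ, hδ, hball⟩ := Metric.isOpen_iff.1 (hW.preimage hc) 0 (by simpa using hxW)
  have hmem : δ / 2 ∈ Metric.ball (0 : ℝ) δ := by
    simp [abs_of_pos hδ]; linarith
  have hx' := hWc _ (hball hmem) (Re.add_mem hx.1 (real_smul_mem _ h.e_mem))
  have := h.add_mem (hv' (δ / 2) (by linarith)) hx'
  convert this using 1
  push_cast
  rw [neg_smul]
  abel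

end IsHyp

end Vale.Agent.P078.Local
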